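import Vale.Agent.P022G.Top.Drop
import Vale.Agent.P022G.Defs
import Vale.Agent.P022G.Ps.Defs
import Vale.Agent.P022G.Obs.Defs

/-!
P022G: the interface between the top of the proof and the Galois side (statements).
-/

set_option linter.all false

open NumberField IsLocalRing

noncomputable section

namespace Vale.Agent.P022G.Top

open Vale.Agent.P022
open Vale.Agent.P027M.S (mx)
open Vale.Agent.P022D.Core (Coef)
open Vale.Agent.P022E.Loc (Pl)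
open Vale.Agent.P022E.As (Tg Out2)
open Vale.Agent.P022G.Ps (HD3)
open Vale.Agent.P022G.Obs (FX)

/-- the modules of level zero embed into those without the auxiliary primes -/
def Tr0 {O : Type} [CommRing O] (L : Pl O) (X : Finset ℕ) {I I' : Type} (Y0 : I → Type)
    (Y0' : I' → Type) [∀ i, AddCommGroup (Y0 i)] [∀ i, Module (Tg O) (Y0 i)]
    [∀ i, AddCommGroup (Y0' i)] [∀ i, Module (Tg O) (Y0' i)] (iJ : Finset L.C → I)
    (iJ' : Finset (dL L X).C → I') : Prop :=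
  ∀ (J : Finset L.C) (J' : Finset (dL L X).C), (∀ l : L.C, l ∈ J ↔ ∃ l' ∈ J', l'.1 = l.1) →
    ∃ f : Y0 (iJ J) →ₗ[Tg O] Y0' (iJ' J'), Function.Injective f

/-- **the auxiliary primes** -/
def AUXG : Prop := ∀ (K : Subgroup GQ), K.Normal → IsOpen (K : Set GQ) →
  (∀ g : GQ, (∀ z : Qb, z ^ 8 = 1 → g z = z) → ∃ o : ℕ, Odd o ∧ g ^ o ∈ K) →
  ∀ (T : Finset ℕ) (n : ℕ), 2 ∈ T → ∃ X : Finset ℕ, n ≤ X.card ∧
    (∀ a ∈ X, a.Prime ∧ a ∉ T ∧ a % 8 = 1 ∧ ∀ φ, IsFrob a φ → φ ∈ K) ∧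
    (∃ a ∈ X, ∀ φ, IsFrob a φ →
      (∃ z : Qb, z ^ 4 = 2 ∧ φ z ≠ z) ∧ ∃ z : Qb, z ^ 8 = -4 ∧ φ z ≠ z) ∧
    FX K (T ∪ X) ∧ FX ⊤ (T ∪ X)

/-- **the Galois side** -/
def L2G : Prop := ∀ (K : Subgroup GQ) (T₀ : Finset ℕ), ∃ n : ℕ,
  ∀ (O F : Type) [CommRing O] [IsDomain O] [IsDiscreteValuationRing O] [Coef O]
  [Field F] [Finite F] [CharP F 2] (ϖ : O) (S : R.Dat O F) (S' : P022D.R.Dat O F) (L : Pl O)
  (X : Finset ℕ) (as : ℕ) (h0 : S'.l0 ∉ X) (I I' : Type) (Y0 : I → Type) (W0 : Type)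
  (Y0' : I' → Type) (W0' : Type) [∀ i, AddCommGroup (Y0 i)] [∀ i, Module (Tg O) (Y0 i)]
  [AddCommGroup W0] [Module (Tg O) W0] [∀ i, AddCommGroup (Y0' i)] [∀ i, Module (Tg O) (Y0' i)]
  [AddCommGroup W0'] [Module (Tg O) W0'] (ses : I → I → I → Prop) (ig ib : I)
  (iJ : Finset L.C → I) (ses' : I' → I' → I' → Prop) (ig' ib' : I')
  (iJ' : Finset (dL L X).C → I'),
  S.rb.ker = K → S.T \ X = T₀ → n ≤ X.card → Irreducible ϖ → Cx S L X as →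
  L.W.Nonempty → (∀ l ∈ L.C, mx S.rb (L.τ l) = 1) → FX S.rb.ker S.T → FX ⊤ S.T →
  S'.T = S.T → (∀ g, (mx S'.rb g).trace = (mx S.rb g).trace) →
  HD3 ϖ S' L Y0 W0 ses ig ib iJ → HD3 ϖ (dS S' X h0) (dL L X) Y0' W0' ses' ig' ib' iJ' →
  Tr0 L X Y0 Y0' iJ iJ' → Out2 ϖ (dL L X) W0'

end Vale.Agent.P022G.Top
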