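import Vale.Agent.P022G.Top.Drop
import Vale.Agent.P022G.Rows
import Vale.Agent.P022G.Tr.Defs
import Vale.Agent.P022G.Ps.Main

/-!
P022G: the two statements which the theorem in fixed weight needs.
-/

set_option linter.all false

open NumberField IsLocalRing

noncomputable section

namespace Vale.Agent.P022G.Top

open Vale.Agent.P022
open Vale.Agent.P022D.V (Co)
open Vale.Agent.P022D.Core (Coef)
open Vale.Agent.P022D.Rep (XJ)
open Vale.Agent.P022E.Loc (Pl Rm)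
open Vale.Agent.P022E.Fm (Su L0)
open Vale.Agent.P022E.As (Out2)
open Vale.Agent.P022G.Ps (Yy inc)

/-- **the transfer of the modules of level zero** -/
def TR0 : Prop := ∀ (O F : Type) [CommRing O] [IsDomain O] [IsDiscreteValuationRing O] [Coef O]
  [Co O] [Field F] [Finite F] [CharP F 2] (U : Su O F) (A : Finset ℕ) (h0 : U.S.l0 ∉ A)
  [∀ l : U.L.C, Fact l.1.Prime] [∀ l : (dU U A h0).L.C, Fact l.1.Prime],
  U.OkG → (dU U A h0).OkG → A ⊆ U.L.C → (∀ l ∈ U.L.C, ¬ Rm U.S.rb (U.L.τ l)) →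
  ∀ (Cc : ∀ l : U.L.C, P022D.Rep.Ch (ZMod l.1) F)
    (Cc' : ∀ l : (dU U A h0).L.C, P022D.Rep.Ch (ZMod l.1) F), U.IsCh Cc → (dU U A h0).IsCh Cc' →
  ∀ (P0 : L0 U) (P0' : L0 (dU U A h0)) (J : Finset U.L.C), (∀ a ∈ J, (a : ℕ) ∉ A) →
    Tr O (Yy P0 (inc (XJ U.bn Cc J))) (Yy P0' (inc (XJ (dU U A h0).bn Cc' (resJ A J))))

/-- **the Galois side**, with the bound on the number of auxiliary primes -/
def L2H : Prop := ∀ (O F : Type) [CommRing O] [IsDomain O] [IsDiscreteValuationRing O] [Coef O]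
  [Field F] [Finite F] [CharP F 2] (ϖ : O) (S : R.Dat O F) (L : Pl O) (X : Finset ℕ) (as : ℕ),
  Irreducible ϖ → Cy S L X as → Tr.Cz S X → L.W.Nonempty →
  AllF ϖ S L S.T fun I Y0 W0 _ _ _ _ iJ =>
    AllF ϖ S (subL L X) (S.T \ X) fun I' Y0' W0' _ _ _ _ iJ' =>
      (∀ J : Finset L.C, (∀ a ∈ J, (a : ℕ) ∉ X) → Tr O (Y0 (iJ J)) (Y0' (iJ' (resJ X J)))) →
      Out2 ϖ (subL L X) W0'

theorem l2H_of (h : P022G.L2G) : L2H :=
  fun O F _ _ _ _ _ _ _ ϖ S L X as h1 h2 _ _ => h O F ϖ S L X as h1 h2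

end Vale.Agent.P022G.Top
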