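import Vale.Agent.P022G.Top.Su
import Vale.Agent.P022G.Fp.Lc

/-!
P022G: existence of the local data of the forms side.
-/

namespace Vale.Agent.P022G.Top

theorem explG : EXPLG := by
  intro O F _ _ _ _ _ _ S H r c Sf h1 h2 h3 h4 h5 h6 h7 h8 h9 h10 h11
  obtain ⟨L, e, u, v, a1, a2, a3, a4, a5, a6, a7⟩ :=
    P022E.Loc.expl20 O F S H r c Sf h1 ⟨h2, h3⟩ h4 h5 h6 h7 h8 h9 h10 h11
  exact ⟨L, a1.okG, a2, a3, a4, a5, a6, fun l hl => ⟨_, _, _, a7 l hl⟩⟩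

end Vale.Agent.P022G.Top
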