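import Vale.Agent.P022G.Top.Cy
import Vale.Agent.P022G.Top.Tr0
import Vale.Agent.P022G.Top.Expl
import Vale.Agent.P022G.Tr.Big
import Vale.Agent.P022E.Top.Core
import Vale.Agent.P022D.Top.Main

/-!
P022G: the theorem in fixed weight from the Galois side and the transfer at level zero.
-/

set_option linter.all false

open Matrix NumberField IsLocalRing

noncomputable section

namespace Vale.Agent.P022G.Top

open Vale.Agent.P022
open Vale.Agent.P027M.S (mx Inert)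
open Vale.Agent.P022D.End Vale.Agent.P022D.Dk
open Vale.Agent.P022D.Top hiding COREn CORE MAIN TH END Su exSu ioW ioW_inj ioW_smul core
open Vale.Agent.P022D.V (Co CLAD)
open Vale.Agent.P022E.Loc (Pl Rm)
open Vale.Agent.P022E.Fm (Su L0)
open Vale.Agent.P022E.GW (Ov Fb H1)
open Vale.Agent.P022E.As (Out2)
open Vale.Agent.P022E.Top (limE ioW ioW_inj ioW_smul)
open Vale.Agent.P022G.Obs (FX)

theorem oddG {O F : Type} [CommRing O] [IsLocalRing O] [Co O] [Field F] {U : Su O F}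
    (hU : U.OkG) : Odd U.N ∧ 3 ≤ U.N := by
  have pc : ∀ l ∈ U.L.C, l.Prime := fun l hl => (hU.ok.pr l (Finset.mem_union_right _ hl)).1
  have dv : ∀ {l : ℕ}, l.Prime → (l ∣ U.N ↔ l ∈ U.L.W ∪ U.L.C) := fun {l} hl => by
    rw [P022E.Fm.Su.N, hl.dvd_mul, hU.NW l hl, Finset.mem_union, hU.NC]
    refine or_congr_right ⟨fun h => ?_, fun h => Finset.dvd_prod_of_mem _ h⟩
    obtain ⟨a, ha, e⟩ := (Prime.dvd_finsetProd_iff hl.prime _).1 h
    rwa [(Nat.prime_dvd_prime_iff_eq hl (pc a ha)).1 e]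
  have n0 : U.N ≠ 0 := mul_ne_zero hU.NW0 (by
    rw [hU.NC]
    exact Finset.prod_ne_zero_iff.2 fun a ha => (pc a ha).ne_zero)
  constructor
  · rw [← Nat.not_even_iff_odd, even_iff_two_dvd, dv Nat.prime_two]
    exact fun h => (hU.ok.pr 2 h).2 rfl
  · obtain ⟨l, hl⟩ : ∃ l, l ∈ U.L.W ∪ U.L.C := by
      rcases hU.W3 with ⟨l, h⟩ | ⟨l, h, -⟩
      · exact ⟨l, Finset.mem_union_left _ h⟩
      · exact ⟨l, Finset.mem_union_right _ h⟩
    have h := hU.ok.pr l hl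
    have h1 := h.1.two_le
    have h2 := Nat.le_of_dvd (Nat.pos_of_ne_zero n0) ((dv h.1).2 hl)
    have h3 := h.2
    omega

variable {E : Type} [NontriviallyNormedField E] [IsUltrametricDist E]
  [NormedAlgebra ℚ_[2] E] [FiniteDimensional ℚ_[2] E]

theorem limG [Co (Ob E)] {r : GQ →* GL (Fin 2) E} {U : Su (Ob E) (ResidueField (Ob E))}
    [∀ l : U.L.C, Fact l.1.Prime] (hU : U.OkG) (hϖ : Irreducible U.ϖ)
    (htr : ∀ g, ((U.L.r g).trace : E) = (r g : Matrix (Fin 2) (Fin 2) E).trace)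
    (hdt : ∀ g, ((U.L.r g).det : E) = (r g : Matrix (Fin 2) (Fin 2) E).det) {N : ℕ}
    [NeZero (N ^ 2)] (hN : U.N ∣ N) (P : L0 U) (hO : Out2 U.ϖ U.L P.W0) : LimR (N ^ 2) r := by
  have eM : P.M = U.N := by rw [P.lv.eq, Fin.prod_univ_zero, mul_one]
  refine limE (P022D.V.clad _ (P022D.V.cla _) (P022D.V.lift _) (P022D.V.All.div _)) htr hdt
    (M := P.M) (i := U.i) (z := U.z) (eM ▸ (oddG hU).1) (eM ▸ (oddG hU).2)
    (pow_dvd_pow_of_dvd (eM ▸ hN) 2) (eM ▸ hU.z) (ioW P) (ioW_inj P)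
    (fun w => (show P.X.Wh from w).1.2.1)
    (fun w => (P022D.Fm.mem_of_sub (show P.X.Wh from w).2.1).1.2)
    (fun p u φ hp h2 hu hφ w => ?_) (fun p u φ hp h2 hu hφ w => ?_) hϖ.not_isUnit hO
  · obtain ⟨h, rfl⟩ := ex_PA hp h2 hu
    rw [ioW_smul, show P.ev (P022D.As.tt φ) = P.X.t φ from MvPolynomial.eval₂Hom_X' _ _ _]
    exact P.ok.op.frT ⟨p, h⟩ φ hφ _
  · obtain ⟨h, rfl⟩ := ex_PA hp h2 hu
    rw [ioW_smul, show P.ev (P022D.As.dd φ) = P.X.d φ from MvPolynomial.eval₂Hom_X' _ _ _]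
    exact P.ok.op.frS ⟨p, h⟩ φ hφ _

/-- the theorem over a field with enough roots of unity -/
theorem core0 (hL : L2H) (hT : TR0) {R N₀ : ℕ} [NeZero R] [NeZero N₀] {r : GQ →* GL (Fin 2) E}
    {M : Subgroup GQ} {S X : Finset ℕ} {ω : (ZMod R)ˣ →* Eˣ} {i as : ℕ} (hc : Continuous r)
    (ho : OddRep r) (hM : Bal r M) (hd : DetOne r) (hS : ∀ l ∈ S, l.Prime ∧ l ≠ 2)
    (hR : R = ∏ l ∈ S, l) (hu : ∀ p : ℕ, p.Prime → p ≠ 2 → p ∉ S → UnrAt r p) (hv : Lev r N₀)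
    (hi : 1 ≤ i) (hW : DetW r R ω i) {K : Subgroup GQ} (hK : (rbO r hM.int).ker = K)
    (hX : ∀ a ∈ X, a.Prime ∧ a ∉ insert 0 (insert 2 S) ∧ a % 8 = 1 ∧ ∀ P : Ideal (𝓞 Qb), Ov a P →
      (∀ s, Inert P s → s ∈ K) ∧ ∀ φ, Fb a P φ → φ ∈ K) (mem : as ∈ X)
    (mv : ∀ (P : Ideal (𝓞 Qb)) (φ : GQ), Ov as P → Fb as P φ →
      (∃ z : Qb, z ^ 4 = 2 ∧ φ z ≠ z) ∧ ∃ z : Qb, z ^ 8 = -4 ∧ φ z ≠ z)
    (fx : ∀ T : Finset ℕ, 2 ∈ T → X ⊆ T → (∀ l ∈ T, l = 0 ∨ l.Prime) → FX K T ∧ FX ⊤ T)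
    (b1 : S.card + 2 ≤ X.card) {k : ℕ} {g : Fin k → GQ} (b2 : 2 * k ≤ X.card)
    (hg : ∀ c ∈ H1 (rbO r hM.int) (insert 0 (insert 2 S)) ⊤, (∀ i, c (g i) = 0) → c = 0)
    {ζ : E} (hζ : IsPrimitiveRoot ζ (nn (R * ∏ a ∈ X, a) N₀)) {y : E} (hy : y * y = -1) :
    LimR ((N₀ * R) ^ 2) r := by
  classical
  subst hK
  obtain ⟨co⟩ := P022D.V.emb E (Ob E) fun x => mem_Ob
  have x2 : ∀ a ∈ X, a ≠ 2 := fun a ha e =>
    (hX a ha).2.1 (e ▸ Finset.mem_insert_of_mem (Finset.mem_insert_self _ _))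
  have xS : ∀ a ∈ X, a ∉ S := fun a ha e =>
    (hX a ha).2.1 (Finset.mem_insert_of_mem (Finset.mem_insert_of_mem e))
  obtain ⟨U, h0, hU, hU', hϖ, hN, hXC, hWC, hH, hC, hW3, k'⟩ := exSu explG hc ho hM hd hS hR hu hv
    hi hW (A := X) (fun a ha => ⟨(hX a ha).1, x2 a ha, xS a ha,
      hM.uni hc (hX a ha).1 (x2 a ha) (hX a ha).2.2.2⟩) hζ
  haveI : ∀ l : U.L.C, Fact l.1.Prime :=
    fun l => ⟨(hU.ok.pr l.1 (Finset.mem_union_right _ l.2)).1⟩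
  haveI : ∀ l : (dU U X h0).L.C, Fact l.1.Prime :=
    fun l => ⟨(hU'.ok.pr l.1 (Finset.mem_union_right _ l.2)).1⟩
  have eT : U.S.T \ X = insert 0 (insert 2 S) := by
    rw [k'.hT, ← Finset.insert_union, ← Finset.insert_union,
      Finset.union_sdiff_cancel_right (Finset.disjoint_right.2 fun a ha => (hX a ha).2.1)]
  have fx' := fx U.S.T (k'.hT ▸ Finset.mem_insert_of_mem (Finset.mem_insert_self _ _))
    (fun a ha => k'.hT ▸ Finset.mem_insert_of_mem (Finset.mem_insert_of_mem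
      (Finset.mem_union_right _ ha))) (fun l hl => by
      rw [hU.ok.hT, Finset.mem_insert, Finset.mem_insert] at hl
      rcases hl with h | h | h
      · exact Or.inl h
      · exact Or.inr (h ▸ Nat.prime_two)
      · exact Or.inr (hU.ok.pr l h).1)
  obtain ⟨S', a, e1, e2, cy⟩ := exCy hc hM hd hU.ok hH k' (X := X) (as := as)
    (fun l hl h => hu l hl (fun e => h.elim (fun h => h (e ▸ k'.hT ▸ Finset.mem_insert_of_mem
        (Finset.mem_insert_self _ _))) fun h => x2 l h e)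
      fun e => h.elim (fun h => h (k'.hT ▸ Finset.mem_insert_of_mem (Finset.mem_insert_of_mem
        (Finset.mem_union_left _ e)))) fun h => xS l h e) hXC
    (le_trans (Nat.add_le_add_right (Finset.card_le_card fun l hl => by
      have h1 := Finset.mem_sdiff.1 hl
      exact (Finset.mem_union.1 (hWC ▸ Finset.mem_union_right _ h1.1)).resolve_right h1.2) 2) b1)
    (fun a ha => ⟨(hX a ha).2.2.1, fun φ ⟨P, h1, h2, h3⟩ =>
      ((hX a ha).2.2.2 P ⟨(hX a ha).1, h1, h2⟩).2 φ h3⟩) mem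
    (fun φ ⟨P, h1, h2, h3⟩ => mv P φ ⟨(hX as mem).1, h1, h2⟩ h3) hC fx'.1 fx'.2
  have hr : ∀ l ∈ U.L.C, ¬ Rm U.S.rb (U.L.τ l) := by
    rintro l hl ⟨g, hg⟩
    refine hg ?_
    rw [k'.rtr (h := hM.int), k'.rtr (h := hM.int)]
    unfold P027M.S.mx
    rw [map_mul, hM.tau hd hU.ok hl (hC l hl), mul_one]
  have hr' : ∀ l ∈ (dU U X h0).L.C, ¬ Rm (dU U X h0).S.rb ((dU U X h0).L.τ l) :=
    fun l hl => hr l (Finset.mem_sdiff.1 hl).1
  have y1 : ‖y‖ = 1 := norm_root (n := 4) (by norm_num) (by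
    rw [show y ^ 4 = (y * y) * (y * y) by ring, hy]; ring)
  have hy' : (⟨y, mem_Ob.2 y1.le⟩ : Ob E) * ⟨y, mem_Ob.2 y1.le⟩ = -1 := Subtype.ext hy
  obtain ⟨Cc, c1⟩ := P022E.Fm.chCG hU
  obtain ⟨Cc', c2⟩ := P022E.Fm.chCG hU'
  obtain ⟨P0⟩ := Ps.ex_l0 hU
  obtain ⟨P0'⟩ := Ps.ex_l0 hU'
  have sm := k'.sm (h := hM.int)
  have tr : ∀ g, (mx U.S.rb g).trace = (mx S'.rb g).trace := fun g => e1 ▸ k'.rtr g
  have hO := hL (Ob E) _ U.ϖ S' _ X as hϖ cy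
    ⟨cy.fx, cy.fx1, k, g, b2, by rw [e1, e2, eT]; exact hg⟩ hW3
    U.S _ _ _ _ _ _ _ e2.symm tr (hd3_g (a := a) sm (Ps.hd3 hU c1 hr hy' P0))
    (dU U X h0).S _ _ _ _ _ _ _ (congrArg (· \ X) e2.symm) tr
    (hd3_g (L := (dU U X h0).L) (a := a) sm (Ps.hd3 hU' c2 hr' hy' P0'))
    (hT _ _ U X h0 hU hU' hXC hr Cc Cc' c1 c2 P0 P0')
  exact limG hU' hϖ k'.tr k'.dt (dvd_of_eq hN) P0' (out_g (L := (dU U X h0).L) (a := a) sm hO)

/-- **CORE** -/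
theorem core (hL : L2H) (hT : TR0) : CORE := by
  intro R N₀ _ _
  refine ⟨1, one_pos, ?_⟩
  intro E _ _ _ _ r M S ω i hc ho hM hd hS hR hu hv hi hW _
  obtain ⟨k, g, hg⟩ := Tr.big (rbO r hM.int).ker (insert 0 (insert 2 S))
  obtain ⟨X, as, hn, mem, hX, mv, fx⟩ := Ax.exX (hM.dh hc) (insert 0 (insert 2 S))
    (max (S.card + 2) (2 * k))
  have A0 : ∏ a ∈ X, a ≠ 0 := Finset.prod_ne_zero_iff.2 fun a ha => (hX a ha).1.ne_zero
  have n0 := nn_pos (mul_ne_zero (NeZero.ne R) A0) (NeZero.ne N₀)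
  generalize hm : nn (R * ∏ a ∈ X, a) N₀ = m at n0
  obtain ⟨E', i1, i2, i3, i4, i5, i6, hp⟩ := ext_split E (Polynomial.cyclotomic (m * 4) E)
  haveI : CharZero E' := charZero_of_injective_algebraMap (algebraMap ℚ_[2] E').injective
  have m0 : 0 < m * 4 := by omega
  rw [Polynomial.map_cyclotomic] at hp
  obtain ⟨ζ, hζ⟩ := hp.exists_eval_eq_zero (by
    rw [Polynomial.degree_cyclotomic]
    exact_mod_cast (Nat.totient_pos.2 m0).ne')
  haveI : NeZero ((m * 4 : ℕ) : E') := ⟨by exact_mod_cast m0.ne'⟩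
  have hζ' : IsPrimitiveRoot ζ (m * 4) := Polynomial.isRoot_cyclotomic_iff.1 hζ
  have h4 : IsPrimitiveRoot (ζ ^ m) 4 := hζ'.pow m0 rfl
  have h2 : IsPrimitiveRoot ((ζ ^ m) ^ 2) 2 := h4.pow (by norm_num) rfl
  have hK : (rbO (bc E' r) (hM.ext E').int).ker = (rbO r hM.int).ker := by
    ext x
    rw [MonoidHom.mem_ker, MonoidHom.mem_ker, rbO_one, rbO_one]
    refine forall_congr' fun a => forall_congr' fun b => ?_
    have e : algebraMap E E' ((1 : Matrix (Fin 2) (Fin 2) E) a b) =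
        (1 : Matrix (Fin 2) (Fin 2) E') a b := by
      by_cases e : a = b <;> simp [Matrix.one_apply, e]
    rw [Matrix.sub_apply, Matrix.sub_apply, bc_ent, ← e, ← map_sub, norm_algebraMap']
  have h := core0 hL hT (ω := bcc E' ω) (bc_cont E' hc) (H20.bc_odd.2 ho) (hM.ext E')
    (detOne_bc E' hd) hS hR (fun p a b c => H20.bc_unrAt.2 (hu p a b c)) (lev_bc E' hv) hi
    (fun ε hε => (hW ε hε).imp fun j hj g a u h1 h2 => by
      have := hj g a u h1 h2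
      rw [← norm_algebraMap' E', map_sub, map_mul, map_pow, map_natCast] at this
      rw [H20.bc_det, bcc_coe]
      exact this) hK hX mem mv fx ((le_max_left _ _).trans hn) ((le_max_right _ _).trans hn)
    (hg _ _ hK (rbO_open (bc_cont E' hc))) (ζ := ζ ^ 4) (hm ▸ hζ'.pow m0 (mul_comm _ _))
    (y := ζ ^ m) (by rw [← sq]; exact h2.eq_neg_one_of_two_right)
  intro φ hφ ε hε
  refine (h φ hφ ε hε).imp fun j hj x hx => ?_
  have := hj x hx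
  rwa [lift_bc, norm_algebraMap'] at this

end Vale.Agent.P022G.Top
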