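import Vale.Agent.P022D.Dk.Red

/-!
P022G: a residual representation which is reducible on the group of the eighth cyclotomic field
and has a non zero trace is a sum of two distinct characters, or induced from a subgroup of index
two which contains that group.
-/

set_option linter.all false

open Matrix

noncomputable section

namespace Vale.Agent.P022G.Tri

open Vale.Agent.P022 Vale.Agent.P022D.Dk

theorem cy_conj {h : GQ} (hh : Cy8 h) (g : GQ) : Cy8 (g⁻¹ * h * g) := by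
  intro ζ hζ
  have h1 : h (g ζ) = g ζ := hh _ (by rw [← map_pow, hζ, map_one])
  rw [AlgEquiv.mul_apply, AlgEquiv.mul_apply, h1, ← AlgEquiv.mul_apply, inv_mul_cancel]
  rfl

theorem cy_sq (g : GQ) : Cy8 (g * g) := by
  intro ζ hζ
  obtain ⟨ω, hω⟩ := HasEnoughRootsOfUnity.exists_primitiveRoot Qb 8
  obtain ⟨i, -, rfl⟩ := hω.eq_pow_of_pow_eq_one hζ
  have h1 : IsPrimitiveRoot (g ω) 8 := hω.map_of_injective g.injective
  obtain ⟨a, ha, e⟩ := hω.eq_pow_of_pow_eq_one h1.pow_eq_one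
  have hc : Nat.Coprime a 8 := (hω.pow_iff_coprime (by norm_num) a).1 (e ▸ h1)
  have h2 : a * a % 8 = 1 := by
    interval_cases a <;> first | rfl | (exfalso; revert hc; decide)
  have h3 : g (g ω) = ω := by
    rw [← e, map_pow, ← e, ← pow_mul, ← Nat.div_add_mod (a * a) 8, pow_add, pow_mul,
      hω.pow_eq_one, one_pow, one_mul, h2, pow_one]
  rw [map_pow, AlgEquiv.mul_apply, h3]

variable {k : Type} [Field k]

theorem mul_ent (σ : GQ →* GL (Fin 2) k) (g g' : GQ) (i j : Fin 2) :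
    (σ (g * g') : Matrix (Fin 2) (Fin 2) k) i j =
      (σ g : Matrix (Fin 2) (Fin 2) k) i 0 * (σ g' : Matrix (Fin 2) (Fin 2) k) 0 j +
      (σ g : Matrix (Fin 2) (Fin 2) k) i 1 * (σ g' : Matrix (Fin 2) (Fin 2) k) 1 j := by
  rw [map_mul, Units.val_mul, Matrix.mul_apply, Fin.sum_univ_two]

theorem one_ent (σ : GQ →* GL (Fin 2) k) (i j : Fin 2) :
    (σ 1 : Matrix (Fin 2) (Fin 2) k) i j = (1 : Matrix (Fin 2) (Fin 2) k) i j := by
  rw [map_one, Units.val_one]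

/-- the stabiliser of the first coordinate line -/
def Stb (σ : GQ →* GL (Fin 2) k) : Subgroup GQ where
  carrier := {g | (σ g : Matrix (Fin 2) (Fin 2) k) 1 0 = 0}
  mul_mem' := fun {a b} ha hb => by
    change (σ (a * b) : Matrix (Fin 2) (Fin 2) k) 1 0 = 0
    rw [mul_ent, show (σ a : Matrix (Fin 2) (Fin 2) k) 1 0 = 0 from ha,
      show (σ b : Matrix (Fin 2) (Fin 2) k) 1 0 = 0 from hb, zero_mul, mul_zero, add_zero]
  one_mem' := by
    change (σ 1 : Matrix (Fin 2) (Fin 2) k) 1 0 = 0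
    rw [one_ent]
    simp
  inv_mem' := fun {a} ha => by
    change (σ a⁻¹ : Matrix (Fin 2) (Fin 2) k) 1 0 = 0
    have ha' : (σ a : Matrix (Fin 2) (Fin 2) k) 1 0 = 0 := ha
    have h1 := mul_ent σ a a⁻¹ 1 0
    rw [mul_inv_cancel, one_ent, ha', zero_mul, zero_add] at h1
    have h2 := (σ a).det_ne_zero
    rw [Matrix.det_fin_two, ha', mul_zero, sub_zero] at h2
    have h3 : (1 : Matrix (Fin 2) (Fin 2) k) 1 0 = 0 := by simp
    rw [h3] at h1
    exact (mul_eq_zero.1 h1.symm).resolve_left (right_ne_zero_of_mul h2)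

theorem mem_Stb {σ : GQ →* GL (Fin 2) k} {g : GQ} :
    g ∈ Stb σ ↔ (σ g : Matrix (Fin 2) (Fin 2) k) 1 0 = 0 := Iff.rfl

/-- the two cases -/
def Two (ρ : GQ →* GL (Fin 2) k) : Prop :=
  (∃ (a d : GQ →* k) (g₀ : GQ), (∀ g, (ρ g : Matrix (Fin 2) (Fin 2) k).trace = a g + d g ∧
    (ρ g : Matrix (Fin 2) (Fin 2) k).det = a g * d g) ∧ Cy8 g₀ ∧ a g₀ ≠ d g₀) ∨
  ∃ (M : Subgroup GQ) (g₀ : GQ), M.index = 2 ∧ (∀ g, Cy8 g → g ∈ M) ∧
    (∀ g, g ∉ M → (ρ g : Matrix (Fin 2) (Fin 2) k).trace = 0) ∧ Cy8 g₀ ∧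
    (ρ g₀ : Matrix (Fin 2) (Fin 2) k).trace ≠ 0

theorem two_of (σ : GQ →* GL (Fin 2) k) [CharP k 2] (hH : ∀ h, Cy8 h → h ∈ Stb σ) {g₀ : GQ}
    (h0 : Cy8 g₀) {α δ : k} (hne : α ≠ δ)
    (e : (σ g₀ : Matrix (Fin 2) (Fin 2) k) = !![α, 0; 0, δ]) : Two σ := by
  have key : ∀ g, g ∉ Stb σ → (σ g : Matrix (Fin 2) (Fin 2) k) 0 0 = 0 := by
    intro g hg
    have h1 := mem_Stb.1 (hH _ (cy_conj h0 g))
    have e1 : g₀ * g = g * (g⁻¹ * g₀ * g) := by group
    have a0 := mul_ent σ g (g⁻¹ * g₀ * g) 0 0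
    have a1 := mul_ent σ g (g⁻¹ * g₀ * g) 1 0
    rw [← e1, mul_ent, e, h1] at a0 a1
    simp only [of_apply, cons_val', cons_val_zero, cons_val_one, cons_val_fin_one, zero_mul,
      mul_zero, add_zero, zero_add] at a0 a1
    have h2 : δ = (σ (g⁻¹ * g₀ * g) : Matrix (Fin 2) (Fin 2) k) 0 0 :=
      mul_right_cancel₀ (fun h => hg (mem_Stb.2 h)) (a1.trans (mul_comm _ _))
    rw [← h2] at a0
    have h3 : (α - δ) * (σ g : Matrix (Fin 2) (Fin 2) k) 0 0 = 0 := by linear_combination a0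
    exact (mul_eq_zero.1 h3).resolve_left (sub_ne_zero.2 hne)
  have key2 : ∀ g, g ∉ Stb σ → (σ g : Matrix (Fin 2) (Fin 2) k) 1 1 = 0 := by
    intro g hg
    have hg' : g⁻¹ ∉ Stb σ := fun h => hg ((Stb σ).inv_mem_iff.1 h)
    have h1 := mul_ent σ g g⁻¹ 1 0
    rw [mul_inv_cancel, one_ent, key _ hg', mul_zero, zero_add] at h1
    have h3 : (1 : Matrix (Fin 2) (Fin 2) k) 1 0 = 0 := by simp
    rw [h3] at h1
    exact (mul_eq_zero.1 h1.symm).resolve_right fun h => hg' (mem_Stb.2 h)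
  by_cases hT : ∀ g, g ∈ Stb σ
  · left
    let a : GQ →* k :=
      { toFun := fun g => (σ g : Matrix (Fin 2) (Fin 2) k) 0 0
        map_one' := by rw [one_ent]; simp
        map_mul' := fun g g' => by rw [mul_ent, mem_Stb.1 (hT g'), mul_zero, add_zero] }
    let d : GQ →* k :=
      { toFun := fun g => (σ g : Matrix (Fin 2) (Fin 2) k) 1 1
        map_one' := by rw [one_ent]; simp
        map_mul' := fun g g' => by rw [mul_ent, mem_Stb.1 (hT g), zero_mul, zero_add] }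
    refine ⟨a, d, g₀, fun g => ⟨Matrix.trace_fin_two _, ?_⟩, h0, ?_⟩
    · rw [Matrix.det_fin_two, mem_Stb.1 (hT g), mul_zero, sub_zero]
      rfl
    · change (σ g₀ : Matrix (Fin 2) (Fin 2) k) 0 0 ≠ (σ g₀ : Matrix (Fin 2) (Fin 2) k) 1 1
      rw [e]
      simpa using hne
  · right
    push Not at hT
    obtain ⟨g₁, hg₁⟩ := hT
    refine ⟨Stb σ, g₀, Subgroup.index_eq_two_iff.2 ⟨g₁, fun b => ?_⟩, hH, fun g hg => ?_, h0, ?_⟩
    · by_cases hb : b ∈ Stb σ
      · exact Or.inr ⟨hb, fun h => hg₁ (((Stb σ).mul_mem_cancel_left hb).1 h)⟩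
      · refine Or.inl ⟨mem_Stb.2 ?_, hb⟩
        rw [mul_ent, key _ hg₁, key2 _ hb, mul_zero, zero_mul, add_zero]
    · rw [Matrix.trace_fin_two, key _ hg, key2 _ hg, add_zero]
    · rw [e, Matrix.trace_fin_two_of]
      intro h
      exact hne (by linear_combination h - δ * CharTwo.two_eq_zero (R := k))

/-- **the two cases** -/
theorem two [CharP k 2] (ρ : GQ →* GL (Fin 2) k) (w : Fin 2 → k) (hw : w ≠ 0)
    (hl : ∀ h, Cy8 h → ∃ a : k, (ρ h : Matrix (Fin 2) (Fin 2) k) *ᵥ w = a • w)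
    (ht : ∃ g, (ρ g : Matrix (Fin 2) (Fin 2) k).trace ≠ 0) : Two ρ := by
  obtain ⟨g, hg⟩ := ht
  have h2 : (2 : k) = 0 := CharTwo.two_eq_zero
  have ht0 : (ρ (g * g) : Matrix (Fin 2) (Fin 2) k).trace ≠ 0 := by
    intro h
    apply hg
    rw [Matrix.trace_fin_two, mul_ent, mul_ent] at h
    rw [Matrix.trace_fin_two]
    refine pow_eq_zero_iff (two_ne_zero) |>.1 ?_
    linear_combination h + ((ρ g : Matrix (Fin 2) (Fin 2) k) 0 0 *
      (ρ g : Matrix (Fin 2) (Fin 2) k) 1 1 - (ρ g : Matrix (Fin 2) (Fin 2) k) 0 1 *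
      (ρ g : Matrix (Fin 2) (Fin 2) k) 1 0) * h2
  obtain ⟨α, hα⟩ := hl _ (cy_sq g)
  obtain ⟨A, hA⟩ : ∃ A, A = ρ (g * g) := ⟨_, rfl⟩
  rw [← hA] at hα ht0
  obtain ⟨δ, hδ⟩ : ∃ δ, δ = (A : Matrix (Fin 2) (Fin 2) k).trace - α := ⟨_, rfl⟩
  have hne : α ≠ δ := fun h => ht0 (by linear_combination -hδ - h + α * h2)
  have hd : (A : Matrix (Fin 2) (Fin 2) k).det = α * δ := by
    have e0 := congrFun hα 0
    have e1 := congrFun hα 1
    simp only [mulVec, dotProduct, Fin.sum_univ_two, Pi.smul_apply, smul_eq_mul] at e0 e1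
    rw [hδ, Matrix.det_fin_two, Matrix.trace_fin_two]
    by_cases h0 : w 0 = 0
    · have h1 : w 1 ≠ 0 := fun h1 => hw (by
        funext i
        fin_cases i
        · exact h0
        · exact h1)
      refine mul_right_cancel₀ h1 ?_
      linear_combination ((A : Matrix (Fin 2) (Fin 2) k) 0 0 - α) * e1 -
        (A : Matrix (Fin 2) (Fin 2) k) 1 0 * e0
    · refine mul_right_cancel₀ h0 ?_
      linear_combination ((A : Matrix (Fin 2) (Fin 2) k) 1 1 - α) * e0 -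
        (A : Matrix (Fin 2) (Fin 2) k) 0 1 * e1
  obtain ⟨P, hP⟩ := diag A α δ hne (by rw [hδ]; ring) hd
  have hP' : (cj P ρ (g * g) : Matrix (Fin 2) (Fin 2) k) = !![α, 0; 0, δ] := by
    rw [cj_apply, ← hA]
    exact hP
  obtain ⟨v, hv⟩ : ∃ v, v = ((P⁻¹ : GL (Fin 2) k) : Matrix (Fin 2) (Fin 2) k) *ᵥ w := ⟨_, rfl⟩
  have hv0 : v ≠ 0 := hv ▸ mulVec_ne P⁻¹ hw
  have hl' : ∀ (h : GQ) (a : k), (ρ h : Matrix (Fin 2) (Fin 2) k) *ᵥ w = a • w →
      (cj P ρ h : Matrix (Fin 2) (Fin 2) k) *ᵥ v = a • v := by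
    intro h a ha
    rw [hv]
    refine line_conj P⁻¹ _ w a ?_
    rw [cj_apply, show P⁻¹⁻¹ * (P⁻¹ * ρ h * P) * P⁻¹ = ρ h by group, ha]
  have hv1 : v 1 = 0 := by
    have e1 := congrFun (hl' (g * g) α (hA ▸ hα)) 1
    rw [hP'] at e1
    simp only [mulVec, dotProduct, Fin.sum_univ_two, Pi.smul_apply, smul_eq_mul, of_apply,
      cons_val', cons_val_zero, cons_val_one, cons_val_fin_one, zero_mul, zero_add] at e1
    have h3 : (α - δ) * v 1 = 0 := by linear_combination -e1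
    exact (mul_eq_zero.1 h3).resolve_left (sub_ne_zero.2 hne)
  have hv2 : v 0 ≠ 0 := fun h0 => hv0 (by
    funext i
    fin_cases i
    · exact h0
    · exact hv1)
  have hT := two_of (cj P ρ) (fun h hh => by
    obtain ⟨a, ha⟩ := hl h hh
    have e1 := congrFun (hl' h a ha) 1
    simp only [mulVec, dotProduct, Fin.sum_univ_two, Pi.smul_apply, smul_eq_mul, hv1, mul_zero,
      add_zero] at e1
    exact mem_Stb.2 ((mul_eq_zero.1 e1).resolve_right hv2)) (cy_sq g) hne hP'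
  simpa only [Two, cj_trace, cj_det] using hT

/-- the two cases for a representation which is not irreducible on the group of `ℚ(ζ₈)` -/
theorem two_res [CharP k 2] (ρ : GQ →* GL (Fin 2) k) (hi : ¬ St.IrrCyc ρ)
    (ht : ∃ g, (ρ g : Matrix (Fin 2) (Fin 2) k).trace ≠ 0) :
    Two (bc (AlgebraicClosure k) ρ) := by
  have hinj : Function.Injective (algebraMap k (AlgebraicClosure k)) :=
    (algebraMap k (AlgebraicClosure k)).injective
  have hc2 : CharP (AlgebraicClosure k) 2 := charP_of_injective_algebraMap hinj 2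
  unfold St.IrrCyc at hi
  push Not at hi
  obtain ⟨w, hw, h⟩ := hi
  obtain ⟨g, hg⟩ := ht
  exact two _ w hw (fun g hg => h g hg) ⟨g, by rw [H20.bc_trace]; simpa using hg⟩

end Vale.Agent.P022G.Tri
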