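import Vale.Agent.P022G.Top.Spec
import Vale.Agent.P022G.Top.Tri
import Vale.Agent.P022F.Top.Nf

/-!
P022G: the balanced integral model, and the reduction of the theorem to it.
-/

set_option linter.all false

open Matrix

noncomputable section

namespace Vale.Agent.P022G.Top

open Vale.Agent.P022 Vale.Agent.P022D.Dk Vale.Agent.P022D
open Vale.Agent.P022D.Top hiding COREn CORE MAIN TH END

/-- the monomial case in terms of traces -/
structure TrE {E : Type} [NontriviallyNormedField E] (r : GQ →* GL (Fin 2) E)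
    (M : Subgroup GQ) (g₀ : GQ) : Prop where
  tr : ∀ g, ‖(r g : Matrix (Fin 2) (Fin 2) E).trace‖ ≤ 1
  dt : ∀ g, ‖(r g : Matrix (Fin 2) (Fin 2) E).det‖ ≤ 1
  idx : M.index = 2
  ant : ∀ g, g ∉ M → ‖(r g : Matrix (Fin 2) (Fin 2) E).trace‖ < 1
  mem : g₀ ∈ M
  cy : Cy8 g₀
  reg : ‖(r g₀ : Matrix (Fin 2) (Fin 2) E).trace‖ = 1
  out : ∃ g, g ∉ M
  cyc : ∀ g, Cy8 g → g ∈ M

section Nrm

variable {E : Type} [NontriviallyNormedField E]

lemma TrE.cj {r : GQ →* GL (Fin 2) E} {M : Subgroup GQ} {g₀ : GQ} (h : TrE r M g₀)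
    (P : GL (Fin 2) E) : TrE (cj P r) M g₀ :=
  ⟨fun g => by rw [cj_trace]; exact h.tr g, fun g => by rw [cj_det]; exact h.dt g, h.idx,
    fun g hg => by rw [cj_trace]; exact h.ant g hg, h.mem, h.cy,
    by rw [cj_trace]; exact h.reg, h.out, h.cyc⟩

lemma TrE.det_one {r : GQ →* GL (Fin 2) E} {M : Subgroup GQ} {g₀ : GQ} (h : TrE r M g₀)
    (g : GQ) : ‖(r g : Matrix (Fin 2) (Fin 2) E).det‖ = 1 := by
  have h1 : ‖(r g : Matrix (Fin 2) (Fin 2) E).det‖ * ‖(r g⁻¹ : Matrix (Fin 2) (Fin 2) E).det‖ =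
      1 := by
    rw [← norm_mul, ← Matrix.det_mul, ← Units.val_mul, ← map_mul, mul_inv_cancel, map_one,
      Units.val_one, Matrix.det_one, norm_one]
  have h2 := h.dt g
  have h3 := h.dt g⁻¹
  have h4 := norm_nonneg (r g : Matrix (Fin 2) (Fin 2) E).det
  nlinarith

variable [IsUltrametricDist E]

/-- the diagonal entries when `r g₀` is diagonal -/
lemma diag_entE {r : GQ →* GL (Fin 2) E} {M : Subgroup GQ} {g₀ : GQ} (h : TrE r M g₀) {α β : E}
    (hα : ‖α‖ ≤ 1) (hβ : ‖β‖ ≤ 1) (hab : ‖α - β‖ = 1)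
    (h0 : (r g₀ : Matrix (Fin 2) (Fin 2) E) = !![α, 0; 0, β]) (g : GQ) :
    (‖(r g : Matrix (Fin 2) (Fin 2) E) 0 0‖ ≤ 1 ∧ ‖(r g : Matrix (Fin 2) (Fin 2) E) 1 1‖ ≤ 1) ∧
    (g ∉ M → ‖(r g : Matrix (Fin 2) (Fin 2) E) 0 0‖ < 1 ∧
      ‖(r g : Matrix (Fin 2) (Fin 2) E) 1 1‖ < 1) := by
  have e : (r (g₀ * g) : Matrix (Fin 2) (Fin 2) E).trace =
      α * (r g : Matrix (Fin 2) (Fin 2) E) 0 0 + β * (r g : Matrix (Fin 2) (Fin 2) E) 1 1 := by
    rw [map_mul, Units.val_mul, h0, Matrix.trace_fin_two]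
    simp [Matrix.mul_apply, Fin.sum_univ_two]
  have e0 : ‖(r g : Matrix (Fin 2) (Fin 2) E) 0 0‖ =
      ‖(r (g₀ * g) : Matrix (Fin 2) (Fin 2) E).trace -
        β * (r g : Matrix (Fin 2) (Fin 2) E).trace‖ := by
    rw [e, Matrix.trace_fin_two, ← one_mul ‖(r g : Matrix (Fin 2) (Fin 2) E) 0 0‖, ← hab,
      ← norm_mul]
    congr 1
    ring
  have e1 : ‖(r g : Matrix (Fin 2) (Fin 2) E) 1 1‖ =
      ‖α * (r g : Matrix (Fin 2) (Fin 2) E).trace -
        (r (g₀ * g) : Matrix (Fin 2) (Fin 2) E).trace‖ := by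
    rw [e, Matrix.trace_fin_two, ← one_mul ‖(r g : Matrix (Fin 2) (Fin 2) E) 1 1‖, ← hab,
      ← norm_mul]
    congr 1
    ring
  rw [e0, e1]
  refine ⟨⟨nle (h.tr _) (mle hβ (h.tr _)), nle (mle hα (h.tr _)) (h.tr _)⟩, fun hg => ?_⟩
  have hg' : g₀ * g ∉ M := fun h1 => hg ((M.mul_mem_cancel_left h.mem).1 h1)
  exact ⟨nlt (h.ant _ hg') (mlt hβ (h.ant _ hg)), nlt (mlt hα (h.ant _ hg)) (h.ant _ hg')⟩

/-- the normal form from the traces, when an eigenvalue of `r g₀` is rational -/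
theorem bal_of {r : GQ →* GL (Fin 2) E} {M : Subgroup GQ} {g₀ : GQ} (h : TrE r M g₀)
    (hc : Continuous r) (h2 : ‖(2 : E)‖ < 1) (α : E)
    (hα : α ^ 2 - (r g₀ : Matrix (Fin 2) (Fin 2) E).trace * α +
      (r g₀ : Matrix (Fin 2) (Fin 2) E).det = 0) :
    ∃ P : GL (Fin 2) E, Bal (cj P r) M := by
  obtain ⟨β, hβ⟩ : ∃ β, β = (r g₀ : Matrix (Fin 2) (Fin 2) E).trace - α := ⟨_, rfl⟩
  have ht : (r g₀ : Matrix (Fin 2) (Fin 2) E).trace = α + β := by rw [hβ]; ring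
  have hd : (r g₀ : Matrix (Fin 2) (Fin 2) E).det = α * β := by
    rw [hβ]; linear_combination hα
  have hα1 : ‖α‖ ≤ 1 := by
    by_contra hh
    rw [not_le] at hh
    have hα0 : α ≠ 0 := by
      rintro rfl
      rw [norm_zero] at hh
      linarith
    have hi : ‖α⁻¹‖ < 1 := by
      rw [norm_inv]
      exact inv_lt_one_of_one_lt₀ hh
    have e : (1 : E) = (r g₀ : Matrix (Fin 2) (Fin 2) E).trace * α⁻¹ -
        (r g₀ : Matrix (Fin 2) (Fin 2) E).det * (α⁻¹ * α⁻¹) := by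
      field_simp
      linear_combination hα
    have h5 := nlt (mlt (h.tr g₀) hi) (mlt (h.dt g₀) (mlt hi.le hi))
    rw [← e, norm_one] at h5
    exact lt_irrefl _ h5
  have hβ1 : ‖β‖ ≤ 1 := by rw [hβ]; exact nle (h.tr g₀) hα1
  have hab : ‖α - β‖ = 1 := by
    have e : α - β = -(β * 2 - (r g₀ : Matrix (Fin 2) (Fin 2) E).trace) := by rw [ht]; ring
    rw [e, norm_neg]
    exact neq (mlt hβ1 h2) h.reg
  have hne : α ≠ β := by
    intro h3
    rw [h3, sub_self, norm_zero] at hab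
    exact zero_ne_one hab
  obtain ⟨P, hP⟩ := diag (r g₀) α β hne ht hd
  obtain ⟨g₁, hg₁⟩ := h.out
  have hP' : (cj P r g₀ : Matrix (Fin 2) (Fin 2) E) = !![α, 0; 0, β] := hP
  have hbc : ∀ {s : GQ →* GL (Fin 2) E}, TrE s M g₀ →
      (s g₀ : Matrix (Fin 2) (Fin 2) E) = !![α, 0; 0, β] →
      ‖(s g₁ : Matrix (Fin 2) (Fin 2) E) 0 1 * (s g₁ : Matrix (Fin 2) (Fin 2) E) 1 0‖ = 1 := by
    intro s hs hs0
    obtain ⟨a1, a2⟩ := (diag_entE hs hα1 hβ1 hab hs0 g₁).2 hg₁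
    have h5 := neq (mlt a1.le a2) (hs.det_one g₁)
    rw [Matrix.det_fin_two, sub_sub_cancel] at h5
    exact h5
  have hb0 : (cj P r g₁ : Matrix (Fin 2) (Fin 2) E) 0 1 ≠ 0 := by
    intro h3
    have h5 := hbc (h.cj P) hP'
    rw [h3, zero_mul, norm_zero] at h5
    exact zero_ne_one h5
  obtain ⟨D, hD⟩ := scale _ hb0
  refine ⟨P * D, ?_⟩
  rw [← cj_cj]
  obtain ⟨s, hs⟩ : ∃ s, s = cj D (cj P r) := ⟨_, rfl⟩
  have hsT : TrE s M g₀ := by rw [hs]; exact (h.cj P).cj D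
  have hsc : Continuous s := by rw [hs]; exact cj_cont D (cj_cont P hc)
  have hs1 : (s g₁ : Matrix (Fin 2) (Fin 2) E) 0 1 = 1 := by
    rw [hs, cj_apply, (hD _).1, inv_mul_cancel₀ hb0]
  have hs01 : (s g₀ : Matrix (Fin 2) (Fin 2) E) 0 1 = 0 := by
    rw [hs, cj_apply, (hD _).1, hP']
    simp
  have hs10 : (s g₀ : Matrix (Fin 2) (Fin 2) E) 1 0 = 0 := by
    rw [hs, cj_apply, (hD _).2, hP']
    simp
  rw [← hs]
  -- the diagonal of `s g₀`
  obtain ⟨α', hα'⟩ : ∃ x, x = (s g₀ : Matrix (Fin 2) (Fin 2) E) 0 0 := ⟨_, rfl⟩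
  obtain ⟨β', hβ'⟩ : ∃ x, x = (s g₀ : Matrix (Fin 2) (Fin 2) E) 1 1 := ⟨_, rfl⟩
  have hs0 : (s g₀ : Matrix (Fin 2) (Fin 2) E) = !![α', 0; 0, β'] := by
    ext i j
    fin_cases i <;> fin_cases j <;> simp [hα', hβ', hs01, hs10]
  have t1 : α' + β' = α + β := by
    rw [← ht, hα', hβ', ← Matrix.trace_fin_two, hs, cj_trace, cj_trace]
  have t2 : α' * β' = α * β := by
    have e : (s g₀ : Matrix (Fin 2) (Fin 2) E).det = α * β := by rw [hs, cj_det, cj_det, hd]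
    rw [← e, hs0, det_fin_two_of]
    ring
  have hcase : (α' = α ∧ β' = β) ∨ (α' = β ∧ β' = α) := by
    have e : (α' - α) * (α' - β) = 0 := by linear_combination α' * t1 - t2
    rcases mul_eq_zero.1 e with e | e
    · exact Or.inl ⟨by linear_combination e, by linear_combination t1 - e⟩
    · exact Or.inr ⟨by linear_combination e, by linear_combination t1 - e⟩
  have hn : ‖α'‖ ≤ 1 ∧ ‖β'‖ ≤ 1 ∧ ‖α' - β'‖ = 1 := by
    rcases hcase with ⟨e1, e2⟩ | ⟨e1, e2⟩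
    · rw [e1, e2]; exact ⟨hα1, hβ1, hab⟩
    · rw [e1, e2]; exact ⟨hβ1, hα1, by rw [norm_sub_rev]; exact hab⟩
  have hde := diag_entE hsT hn.1 hn.2.1 hn.2.2 hs0
  have hc1 : ‖(s g₁ : Matrix (Fin 2) (Fin 2) E) 1 0‖ = 1 := by
    obtain ⟨a1, a2⟩ := (hde g₁).2 hg₁
    have h5 := neq (mlt a1.le a2) (hsT.det_one g₁)
    rw [Matrix.det_fin_two, sub_sub_cancel, hs1, one_mul] at h5
    exact h5
  have hmul : ∀ g g' i j, (s (g * g') : Matrix (Fin 2) (Fin 2) E) i j =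
      (s g : Matrix (Fin 2) (Fin 2) E) i 0 * (s g' : Matrix (Fin 2) (Fin 2) E) 0 j +
      (s g : Matrix (Fin 2) (Fin 2) E) i 1 * (s g' : Matrix (Fin 2) (Fin 2) E) 1 j := by
    intro g g' i j
    rw [map_mul, Units.val_mul, Matrix.mul_apply, Fin.sum_univ_two]
  have eb : ∀ g, ‖(s g : Matrix (Fin 2) (Fin 2) E) 0 1‖ =
      ‖(s (g * g₁) : Matrix (Fin 2) (Fin 2) E) 0 0 -
        (s g : Matrix (Fin 2) (Fin 2) E) 0 0 * (s g₁ : Matrix (Fin 2) (Fin 2) E) 0 0‖ := by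
    intro g
    rw [hmul, add_sub_cancel_left, norm_mul, hc1, mul_one]
  have ec : ∀ g, ‖(s g : Matrix (Fin 2) (Fin 2) E) 1 0‖ =
      ‖(s (g * g₁) : Matrix (Fin 2) (Fin 2) E) 1 1 -
        (s g : Matrix (Fin 2) (Fin 2) E) 1 1 * (s g₁ : Matrix (Fin 2) (Fin 2) E) 1 1‖ := by
    intro g
    rw [hmul, add_sub_cancel_right, hs1, mul_one]
  refine ⟨fun g i j => ?_, h.cyc, fun g k hg hk =>
      (Subgroup.mul_mem_iff_of_index_two h.idx).2 (iff_of_false hg hk),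
    fun g hg => ?_, fun g hg => (hde g).2 hg,
    ⟨g₀, h.cy, hs01, hs10, by rw [← hα', ← hβ']; exact hn.2.2⟩,
    ⟨g₁, by rw [hs1]; exact one_ne_zero⟩, ⟨g₁, fun e => by simp [e] at hc1⟩⟩
  · fin_cases i <;> fin_cases j
    · exact (hde g).1.1
    · exact (eb g).trans_le (nle (hde _).1.1 (mle (hde _).1.1 (hde _).1.1))
    · exact (ec g).trans_le (nle (hde _).1.2 (mle (hde _).1.2 (hde _).1.2))
    · exact (hde g).1.2
  · have hg' : g * g₁ ∉ M := fun h1 => hg₁ ((M.mul_mem_cancel_left hg).1 h1)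
    exact ⟨(eb g).trans_lt (nlt ((hde _).2 hg').1 (mlt (hde _).1.1 ((hde _).2 hg₁).1)),
      (ec g).trans_lt (nlt ((hde _).2 hg').2 (mlt (hde _).1.2 ((hde _).2 hg₁).2))⟩

end Nrm

lemma TrE.bc {E : Type} [NontriviallyNormedField E] (E' : Type) [NontriviallyNormedField E']
    [NormedAlgebra E E'] {r : GQ →* GL (Fin 2) E} {M : Subgroup GQ} {g₀ : GQ}
    (h : TrE r M g₀) : TrE (bc E' r) M g₀ :=
  ⟨fun g => by rw [H20.bc_trace, norm_algebraMap']; exact h.tr g,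
    fun g => by rw [H20.bc_det, norm_algebraMap']; exact h.dt g, h.idx,
    fun g hg => by rw [H20.bc_trace, norm_algebraMap']; exact h.ant g hg, h.mem, h.cy,
    by rw [H20.bc_trace, norm_algebraMap']; exact h.reg, h.out, h.cyc⟩

/-- the monomial model over a finite extension -/
theorem modelE {E : Type} [NontriviallyNormedField E] [NormedAlgebra ℚ_[2] E]
    [FiniteDimensional ℚ_[2] E] {r : GQ →* GL (Fin 2) E} (hc : Continuous r) {M : Subgroup GQ}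
    {g₀ : GQ} (h : TrE r M g₀) :
    ∃ (E' : Type) (_ : NontriviallyNormedField E') (_ : NormedAlgebra ℚ_[2] E')
      (_ : IsUltrametricDist E') (_ : FiniteDimensional ℚ_[2] E') (_ : NormedAlgebra E E')
      (_ : IsScalarTower ℚ_[2] E E') (P : GL (Fin 2) E'), Bal (cj P (bc E' r)) M := by
  obtain ⟨E', i1, i2, i3, i4, i5, i6, hp⟩ := ext_split E (r g₀ : Matrix (Fin 2) (Fin 2) E).charpoly
  refine ⟨E', i1, i2, i3, i4, i5, i6, ?_⟩
  have hd : ((r g₀ : Matrix (Fin 2) (Fin 2) E).charpoly.map (algebraMap E E')).degree ≠ 0 := by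
    rw [Polynomial.degree_map, Matrix.charpoly_degree_eq_dim]
    simp
  obtain ⟨α, hα⟩ := hp.exists_eval_eq_zero hd
  refine bal_of (h.bc E') (bc_cont E' hc) (norm_two E') α ?_
  rw [Matrix.charpoly_fin_two] at hα
  rw [H20.bc_trace, H20.bc_det]
  simpa using hα

/-- the balanced lattice in the reducible case -/
theorem bal_nf {E Ω : Type} [NontriviallyNormedField E] [NormedAlgebra ℚ_[2] E]
    [IsUltrametricDist E] [FiniteDimensional ℚ_[2] E] [Field Ω] [CharP Ω 2]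
    {s : GQ →* GL (Fin 2) E} (hc : Continuous s) {ι : Ob E →+* Ω} {a d : GQ → Ω} {g₀ : GQ}
    (h : P022F.Nf.NF s ι a d g₀) (h0 : Cy8 g₀) (hne : a g₀ ≠ d g₀)
    (hlo : ∃ g, (s g : Matrix (Fin 2) (Fin 2) E) 1 0 ≠ 0) :
    ∃ (E' : Type) (_ : NontriviallyNormedField E') (_ : NormedAlgebra ℚ_[2] E')
      (_ : IsUltrametricDist E') (_ : FiniteDimensional ℚ_[2] E') (_ : NormedAlgebra E E')
      (_ : IsScalarTower ℚ_[2] E E') (P : GL (Fin 2) E'), Bal (cj P (bc E' s)) ⊤ := by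
  haveI : CompactSpace GQ := by
    have h1 : Algebra.IsAlgebraic ℚ Qb := AlgebraicClosure.isAlgebraic ℚ
    have h2 : IsAlgClosure ℚ Qb := ⟨inferInstance, inferInstance⟩
    have h3 : IsGalois ℚ Qb := IsAlgClosure.isGalois ℚ Qb
    infer_instance
  have hb : Continuous fun g => ‖(s g : Matrix (Fin 2) (Fin 2) E) 1 0‖ :=
    ((Units.continuous_val.comp hc).matrix_elem 1 0).norm
  obtain ⟨g₂, -, hg₂⟩ := isCompact_univ.exists_isMaxOn Set.univ_nonempty hb.continuousOn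
  have hm : ∀ g, ‖(s g : Matrix (Fin 2) (Fin 2) E) 1 0‖ ≤
      ‖(s g₂ : Matrix (Fin 2) (Fin 2) E) 1 0‖ := fun g => hg₂ (Set.mem_univ g)
  have hb0 : (s g₂ : Matrix (Fin 2) (Fin 2) E) 1 0 ≠ 0 := fun e => by
    obtain ⟨g, hg⟩ := hlo
    have h3 := hm g
    rw [e, norm_zero, norm_le_zero_iff] at h3
    exact hg h3
  obtain ⟨E', i1, i2, i3, i4, i5, i6, hp⟩ := ext_split E
    (Polynomial.X ^ 2 - Polynomial.C ((s g₂ : Matrix (Fin 2) (Fin 2) E) 1 0))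
  refine ⟨E', i1, i2, i3, i4, i5, i6, ?_⟩
  rw [Polynomial.map_sub, Polynomial.map_pow, Polynomial.map_X, Polynomial.map_C] at hp
  obtain ⟨σ, hσ⟩ := hp.exists_eval_eq_zero (by
    rw [Polynomial.degree_X_pow_sub_C two_pos]; simp)
  have hσ2 : σ ^ 2 = algebraMap E E' ((s g₂ : Matrix (Fin 2) (Fin 2) E) 1 0) := by
    simpa [sub_eq_zero] using hσ
  have hn2 : ‖σ‖ ^ 2 = ‖(s g₂ : Matrix (Fin 2) (Fin 2) E) 1 0‖ := by
    rw [← norm_pow, hσ2, norm_algebraMap']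
  have hσ0 : σ ≠ 0 := fun e => by
    rw [e, norm_zero, zero_pow two_ne_zero, eq_comm, norm_eq_zero] at hn2
    exact hb0 hn2
  have hσ1 : ‖σ‖ < 1 := lt_of_pow_lt_pow_left₀ 2 zero_le_one (by
    rw [hn2, one_pow]; exact h.lo g₂)
  obtain ⟨D, hD⟩ := P022E.Dk.scale4 σ⁻¹ (inv_ne_zero hσ0)
  refine ⟨D, ?_⟩
  have hD' : ∀ g, (cj D (bc E' s) g : Matrix (Fin 2) (Fin 2) E') = _ := fun g => hD (bc E' s g)
  have e00 : ∀ g, (cj D (bc E' s) g : Matrix (Fin 2) (Fin 2) E') 0 0 =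
      algebraMap E E' ((s g : Matrix (Fin 2) (Fin 2) E) 0 0) := fun g => by rw [hD']; rfl
  have e11 : ∀ g, (cj D (bc E' s) g : Matrix (Fin 2) (Fin 2) E') 1 1 =
      algebraMap E E' ((s g : Matrix (Fin 2) (Fin 2) E) 1 1) := fun g => by rw [hD']; rfl
  have e01 : ∀ g, (cj D (bc E' s) g : Matrix (Fin 2) (Fin 2) E') 0 1 =
      σ * algebraMap E E' ((s g : Matrix (Fin 2) (Fin 2) E) 0 1) := fun g => by
    rw [hD', inv_inv]; rfl
  have e10 : ∀ g, (cj D (bc E' s) g : Matrix (Fin 2) (Fin 2) E') 1 0 =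
      σ⁻¹ * algebraMap E E' ((s g : Matrix (Fin 2) (Fin 2) E) 1 0) := fun g => by rw [hD']; rfl
  have n01 : ∀ g, ‖(cj D (bc E' s) g : Matrix (Fin 2) (Fin 2) E') 0 1‖ < 1 := fun g => by
    rw [e01, norm_mul, norm_algebraMap']
    exact (mul_le_of_le_one_right (norm_nonneg _) (h.int g 0 1)).trans_lt hσ1
  have n10 : ∀ g, ‖(cj D (bc E' s) g : Matrix (Fin 2) (Fin 2) E') 1 0‖ < 1 := fun g => by
    rw [e10, norm_mul, norm_algebraMap', norm_inv, inv_mul_lt_iff₀ (norm_pos_iff.2 hσ0), mul_one]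
    refine (hm g).trans_lt ?_
    rw [← hn2, sq]
    exact mul_lt_of_lt_one_right (norm_pos_iff.2 hσ0) hσ1
  refine ⟨fun g i j => ?_, fun _ _ => trivial, fun _ _ _ _ => trivial,
    fun g _ => ⟨n01 g, n10 g⟩, fun g hg => (hg trivial).elim, ⟨g₀, h0, ?_, ?_, ?_⟩, ?_, g₂, ?_⟩
  · fin_cases i <;> fin_cases j
    · exact (congrArg norm (e00 g)).trans_le ((norm_algebraMap' _ _).trans_le (h.int g 0 0))
    · exact (n01 g).le
    · exact (n10 g).le
    · exact (congrArg norm (e11 g)).trans_le ((norm_algebraMap' _ _).trans_le (h.int g 1 1))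
  · rw [e01, h.dg.1, map_zero, mul_zero]
  · rw [e10, h.dg.2, map_zero, mul_zero]
  · rw [e00, e11, ← map_sub, norm_algebraMap']
    let x : Ob E := ⟨_, mem_Ob.2 (h.int g₀ 0 0)⟩
    let y : Ob E := ⟨_, mem_Ob.2 (h.int g₀ 1 1)⟩
    refine le_antisymm (norm_Ob (x - y)) (not_lt.1 fun e => hne ?_)
    have h3 := (P022F.Nf.zero_iff ι (x - y)).2 e
    rwa [map_sub, h.c0 g₀ x rfl, h.c1 g₀ y rfl, sub_eq_zero] at h3
  · obtain ⟨g, hg⟩ := h.up
    exact ⟨g, by rw [e01, hg, map_one, mul_one]; exact hσ0⟩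
  · rw [e10]
    exact mul_ne_zero (inv_ne_zero hσ0) ((map_ne_zero _).2 hb0)

/-- **the reduction to balanced models** -/
theorem finalG (hM : MAIN) (E : Type) [NontriviallyNormedField E] [NormedAlgebra ℚ_[2] E]
    [FiniteDimensional ℚ_[2] E] (r : GQ →* GL (Fin 2) E) (hc : Continuous r)
    (ho : St.OddRep r) (hi : St.AbsIrr r) (hS : {p : ℕ | p.Prime ∧ ¬ St.UnrAt r p}.Finite)
    (k : Type) [Field k] [CharP k 2] (ρ : GQ →* GL (Fin 2) k) (hr : St.IsRes r ρ)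
    (h8 : ¬ St.IrrCyc ρ) (h1 : ∃ g, (ρ g : Matrix (Fin 2) (Fin 2) k).trace ≠ 0) :
    St.Q1Concl r := by
  refine St.q1Concl r ?_
  have ho' : OddRep r := ho
  have hS' : {p : ℕ | p.Prime ∧ ¬ UnrAt r p}.Finite := hS
  obtain ⟨O, π, hO, ht⟩ := hr
  have hinj : Function.Injective (algebraMap k (AlgebraicClosure k)) :=
    (algebraMap k (AlgebraicClosure k)).injective
  haveI hc2 : CharP (AlgebraicClosure k) 2 := charP_of_injective_algebraMap hinj 2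
  rcases Tri.two_res ρ h8 h1 with ⟨a, d, g₀, had, h0, hne⟩ | ⟨M, g₀, h2, hcy, h0, hc₀, hn₀⟩
  · obtain ⟨E', i1, i2, i3, i4, i5, i6, P, ι, hP⟩ := P022F.Nf.model hc hi O
      ((algebraMap k (AlgebraicClosure k)).comp π) hO a d (fun g => by
        obtain ⟨x, y, a1, a2, a3, a4⟩ := ht g
        refine ⟨x, y, a1, a2, ?_, ?_⟩
        · rw [RingHom.comp_apply, a3, ← (had g).1, H20.bc_trace]
        · rw [RingHom.comp_apply, a4, ← (had g).2, H20.bc_det]) hne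
    haveI : FiniteDimensional E E' := Module.Finite.of_restrictScalars_finite ℚ_[2] E E'
    have hc' := cj_cont P (bc_cont E' hc)
    obtain ⟨E'', j1, j2, j3, j4, j5, j6, Q, hQ⟩ := bal_nf hc' hP h0 hne (by
      let w : GL (Fin 2) E' := ⟨!![0, 1; 1, 0], !![0, 1; 1, 0], by simp [Matrix.one_fin_two],
        by simp [Matrix.one_fin_two]⟩
      obtain ⟨g, hg⟩ := P022F.Nf.ne_of_irr hi (P * w)
      refine ⟨g, fun e => hg ?_⟩
      rw [← cj_cj, cj_apply w, Units.val_mul, Units.val_mul]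
      change ((!![0, 1; 1, 0] : Matrix (Fin 2) (Fin 2) E') *
        (cj P (bc E' r) g : Matrix (Fin 2) (Fin 2) E') *
        (!![0, 1; 1, 0] : Matrix (Fin 2) (Fin 2) E')) 0 1 = 0
      simp [Matrix.mul_apply, Fin.sum_univ_two, Matrix.vecMul, dotProduct, e])
    refine q1_desc r P (q1_desc _ Q (hM E'' _ ⊤ (cj_cont Q (bc_cont E'' hc'))
      ((cj_odd _ _).2 (H20.bc_odd.2 ((cj_odd _ _).2 (H20.bc_odd.2 ho')))) ?_ hQ))
    simp only [cj_unrAt, H20.bc_unrAt]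
    exact hS'
  · have hsm : ∀ t : O, π t = 0 → ‖(t : E)‖ < 1 := fun t => P022E.Br.small_of O hO π t
    have hT : TrE r M g₀ := by
      refine ⟨fun g => ?_, fun g => ?_, h2, fun g hg => ?_, hcy _ hc₀, hc₀, ?_, ?_, hcy⟩
      · obtain ⟨t, d, a, -, -, -⟩ := ht g
        rw [← a]
        exact (hO _).1 t.2
      · obtain ⟨t, d, -, a, -, -⟩ := ht g
        rw [← a]
        exact (hO _).1 d.2
      · obtain ⟨t, d, a, -, b, -⟩ := ht g
        rw [← a]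
        refine hsm t ?_
        have h3 := h0 g hg
        rw [H20.bc_trace, map_eq_zero] at h3
        rw [b, h3]
      · obtain ⟨t, d, a, -, b, -⟩ := ht g₀
        rw [← a]
        refine le_antisymm ((hO _).1 t.2) (not_lt.1 fun h3 => hn₀ ?_)
        rw [H20.bc_trace, ← b, H315.Sv.pi_small O hO π t h3, map_zero]
      · by_contra hn
        push Not at hn
        rw [(Subgroup.eq_top_iff' M).2 hn, Subgroup.index_top] at h2
        exact absurd h2 (by norm_num)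
    obtain ⟨E', i1, i2, i3, i4, i5, i6, P, hP⟩ := modelE hc hT
    refine q1_desc r P (hM E' _ M (cj_cont P (bc_cont E' hc)) ((cj_odd _ _).2 (H20.bc_odd.2 ho'))
      ?_ hP)
    simp only [cj_unrAt, H20.bc_unrAt]
    exact hS'

end Vale.Agent.P022G.Top
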