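import Vale.Agent.P022G.Top.Spec
import Vale.Agent.P022D.Th.All
import Vale.Agent.P022F.Top.Th
import Vale.Agent.P022.H315.Sv.Ind
import Vale.Agent.P022.H431.Sv.Odd
import Vale.Agent.P022.H279.Sv.Quad

/-!
# P022G, block TH: the residual level
-/

set_option linter.all false

open Matrix NumberField IsLocalRing

noncomputable section

namespace Vale.Agent.P022G.Top

open Vale.Agent.P022 Vale.Agent.P022D.Dk Vale.Agent.P022D.End Vale.Agent.P022.H567.Tw
  Vale.Agent.P022D Vale.Agent.P022D.Th Vale.Agent.P022.H790.CT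
open Vale.Agent.P022D.Top hiding COREn CORE MAIN TH END

/-- `r` is integral and residually monomial for `M` -/
structure Mo {E : Type} [NontriviallyNormedField E] (r : GQ →* GL (Fin 2) E)
    (M : Subgroup GQ) : Prop where
  int : ∀ g i j, ‖(r g : Matrix (Fin 2) (Fin 2) E) i j‖ ≤ 1
  opn : IsOpen (M : Set GQ)
  idx : M.index = 2
  dia : ∀ g ∈ M, ‖(r g : Matrix (Fin 2) (Fin 2) E) 0 1‖ < 1 ∧
    ‖(r g : Matrix (Fin 2) (Fin 2) E) 1 0‖ < 1
  ant : ∀ g, g ∉ M → ‖(r g : Matrix (Fin 2) (Fin 2) E) 0 0‖ < 1 ∧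
    ‖(r g : Matrix (Fin 2) (Fin 2) E) 1 1‖ < 1
  out : ∃ g, g ∉ M

open Tei IsUltrametricDist in
theorem teiM (E : Type) [NontriviallyNormedField E] [NormedAlgebra ℚ_[2] E]
    [IsUltrametricDist E] [FiniteDimensional ℚ_[2] E] (r : GQ →* GL (Fin 2) E) (M : Subgroup GQ)
    (h : Mo r M) : ∃ (r₀ : GQ →* GL (Fin 2) E) (n : ℕ), Odd n ∧ Cg r r₀ ∧
    (∀ g i j, ‖(r₀ g : Matrix (Fin 2) (Fin 2) E) i j‖ ≤ 1) ∧
    (∀ g ∈ M, (r₀ g : Matrix (Fin 2) (Fin 2) E) 0 1 = 0 ∧ (r₀ g : Matrix (Fin 2) (Fin 2) E) 1 0 = 0 ∧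
      (r₀ g : Matrix (Fin 2) (Fin 2) E) 0 0 ^ n = 1) ∧
    (∀ g, g ∉ M → (r₀ g : Matrix (Fin 2) (Fin 2) E) 0 0 = 0) ∧
    ∀ g, (∀ i j, ‖((r g : Matrix (Fin 2) (Fin 2) E) - 1) i j‖ < 1) → r₀ g = 1 := by
  obtain ⟨n, t, hn, t1, t2, t3, t4, t5, t6⟩ := tei0 E
  have t0 : t 0 = 0 := t2 0 (by simp)
  have key : ∀ a b c d : E, ‖a‖ ≤ 1 → ‖b‖ ≤ 1 → ‖c‖ < 1 → ‖d‖ ≤ 1 →
      t (a * b + c * d) = t a * t b + t c * t d := fun a b c d ha hb hc hd => by
    have a1 : ‖a * b‖ ≤ 1 := by rw [norm_mul]; exact mul_le_one₀ ha (norm_nonneg _) hb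
    have a2 : ‖c * d‖ < 1 := by rw [mul_comm]; exact mul_lt hd hc
    rw [t2 c hc, zero_mul, add_zero, ← t5 a b ha hb]
    exact t4 _ _ ((norm_add_le_max _ _).trans (max_le a1 a2.le)) a1 (by rwa [add_sub_cancel_left])
  have row : ∀ g i, ‖(r g : Matrix (Fin 2) (Fin 2) E) i 0‖ < 1 ∨
      ‖(r g : Matrix (Fin 2) (Fin 2) E) i 1‖ < 1 := fun g i => by
    by_cases c : g ∈ M
    · fin_cases i
      exacts [Or.inr (h.dia g c).1, Or.inl (h.dia g c).2]
    · fin_cases i
      exacts [Or.inl (h.ant g c).1, Or.inr (h.ant g c).2]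
  have one : (1 : Matrix (Fin 2) (Fin 2) E).map t = 1 := Matrix.map_one t t0 t6
  let f : GQ →* Matrix (Fin 2) (Fin 2) E :=
    { toFun := fun g => (r g : Matrix (Fin 2) (Fin 2) E).map t
      map_one' := by rw [map_one, Units.val_one, one]
      map_mul' := fun g g' => by
        ext i j
        simp only [map_mul, Units.val_mul, Matrix.map_apply, Matrix.mul_apply, Fin.sum_univ_two]
        rcases row g i with c | c
        · rw [add_comm, key _ _ _ _ (h.int _ _ _) (h.int _ _ _) c (h.int _ _ _), add_comm]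
        · exact key _ _ _ _ (h.int _ _ _) (h.int _ _ _) c (h.int _ _ _) }
  have e : ∀ g i j, (f.toHomUnits g : Matrix (Fin 2) (Fin 2) E) i j =
      t ((r g : Matrix (Fin 2) (Fin 2) E) i j) := fun _ _ _ => rfl
  refine ⟨f.toHomUnits, n, hn, fun g i j => ?_, fun g i j => ?_, fun g c => ⟨t2 _ (h.dia g c).1,
    t2 _ (h.dia g c).2, t3 _ (le_antisymm (h.int _ _ _) (not_lt.1 fun o => ?_))⟩,
    fun g c => t2 _ (h.ant g c).1, fun g c => Units.ext ?_⟩
  · rw [Matrix.sub_apply, e, norm_sub_rev]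
    exact t1 _ (h.int _ _ _)
  · have := norm_add_le_max (t ((r g : Matrix (Fin 2) (Fin 2) E) i j) -
      (r g : Matrix (Fin 2) (Fin 2) E) i j) ((r g : Matrix (Fin 2) (Fin 2) E) i j)
    rw [sub_add_cancel] at this
    exact this.trans (max_le (t1 _ (h.int _ _ _)).le (h.int _ _ _))
  · have a2 : ((r g⁻¹ : Matrix (Fin 2) (Fin 2) E) * (r g : Matrix (Fin 2) (Fin 2) E)) 0 0 = 1 := by
      rw [← Units.val_mul, ← map_mul, inv_mul_cancel, map_one, Units.val_one, Matrix.one_apply_eq]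
    rw [Matrix.mul_apply, Fin.sum_univ_two] at a2
    have a3 := add_lt (mul_lt (h.int g⁻¹ 0 0) o) (mul_lt (h.int g⁻¹ 0 1) (h.dia g c).2)
    rw [a2, norm_one] at a3
    exact lt_irrefl _ a3
  · rw [Units.val_one, ← one]
    ext i j
    refine t4 _ _ (h.int _ _ _) ?_ (c i j)
    rw [Matrix.one_apply]
    split_ifs <;> simp

/-- **TH** -/
theorem thM (E : Type) [NontriviallyNormedField E] [NormedAlgebra ℚ_[2] E]
    [IsUltrametricDist E] [FiniteDimensional ℚ_[2] E] (r : GQ →* GL (Fin 2) E) (M : Subgroup GQ)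
    (hc : Continuous r) (hS : {p : ℕ | p.Prime ∧ ¬ UnrAt r p}.Finite) (hM : Mo r M)
    (hd : DetOne r) : ∃ (N₀ : ℕ) (_ : NeZero N₀), Lev r N₀ := by
  classical
  have hE : ETA := eta upos
  have hQ : DSQ := dsq
  obtain ⟨r₀, n, hn, hcg, hi₀, hdia, hant, hker⟩ := teiM E r M hM
  obtain ⟨K, _, _, j, hK, rfl, -⟩ := Dh.Nd.quad M hM.opn hM.idx
  have hq : Algebra.IsQuadraticExtension ℚ K := ⟨hK⟩
  have hn0 : n ≠ 0 := hn.pos.ne'
  let χ₀ : GK j →* E :=
    { toFun := fun g => (r₀ g : Matrix (Fin 2) (Fin 2) E) 0 0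
      map_one' := by simp
      map_mul' := fun g h => by
        rw [Subgroup.coe_mul, map_mul, Units.val_mul, Matrix.mul_apply, Fin.sum_univ_two,
          (hdia g g.2).1, zero_mul, add_zero] }
  let χ : GK j →* Eˣ := χ₀.toHomUnits
  have hχ : ∀ g : GK j, (χ g : E) = (r₀ g : Matrix (Fin 2) (Fin 2) E) 0 0 := fun _ => rfl
  have hle : ∀ g : GK j, r₀ g = 1 → χ g = 1 := fun g h => Units.ext (by rw [hχ, h]; simp)
  have hr1 : ∀ g, r g = 1 → r₀ g = 1 := fun g h => hker g fun a b => by rw [h]; simp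
  have hr : IsInd j χ r₀ := by
    obtain ⟨c, hc⟩ := hM.out
    refine ⟨![1, 0], fun h => ?_, c, fun a ha => ?_⟩
    · funext i
      fin_cases i <;> simp [Matrix.mulVec, dotProduct, hχ, (hdia h h.2).2.1]
    · have h1 := congrFun ha 1
      have h2 : (r₀ c : Matrix (Fin 2) (Fin 2) E) 1 0 = 0 := by
        simpa [Matrix.mulVec, dotProduct] using h1
      have h3 := (r₀ c).det_ne_zero
      rw [Matrix.det_fin_two, hant c hc, h2] at h3
      simp at h3
  have hχc : Continuous χ := by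
    refine continuous_of_continuousAt_one χ (continuousAt_const.congr (f := fun _ => 1) ?_)
    have ho : IsOpen {g : GK j | ∀ a b, ‖((r g : Matrix (Fin 2) (Fin 2) E) - 1) a b‖ < 1} := by
      simp only [Set.setOf_forall]
      refine isOpen_iInter_of_finite fun a => isOpen_iInter_of_finite fun b => ?_
      refine isOpen_lt (Continuous.norm ?_) continuous_const
      exact (((Units.continuous_val.comp hc).comp continuous_subtype_val).sub
        continuous_const).matrix_elem a b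
    filter_upwards [ho.mem_nhds (fun a b => by simp)] with g hg
    exact (hle g (hker g hg)).symm
  obtain ⟨m, ψ, hm, hmp, hatt, hrec⟩ := C.GCHF K j E χ hχc hS.toFinset (by
    intro p hp hpS P hP hpP g hg
    have hu : UnrAt r p := by
      by_contra hn
      exact hpS (hS.mem_toFinset.2 ⟨hp, hn⟩)
    exact hle g (hr1 g (hu P hP hpP g hg)))
  have hc2 : X.Cont2 m ψ := by
    intro ε hε
    obtain ⟨t, ht⟩ := hrec (fun _ => 1) (fun φ g hg => by
      rcases H20.sign_sq j χ hg with h | h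
      · exact h
      · have h1 := (hdia g g.2).2.2
        rw [← hχ, h, hn.neg_one_pow] at h1
        have h2 : (2 : E) = 0 := by linear_combination -h1
        have h3 : CharZero E := charZero_of_injective_algebraMap (algebraMap ℚ_[2] E).injective
        exact absurd h2 two_ne_zero) ε hε
    refine ⟨t + 1, fun α hα => ?_⟩
    have := ht α (H20.ne_zero_of_dvd hα)
      (dvd_trans (Nat.cast_dvd_cast (Dvd.intro_left 2 (by ring))) hα)
    simpa using this
  have hnr := H576.X2.NRM2 K E m hm ψ hc2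
  have hd0 : (discr K).natAbs ≠ 0 := Int.natAbs_ne_zero.2 (NumberField.discr_ne_zero K)
  obtain ⟨e, D₁, hD₁, hD⟩ := Nat.exists_eq_two_pow_mul_odd hd0
  rw [mul_comm] at hD
  have hne : NeZero (D₁ * m ^ 2) := ⟨(Nat.mul_pos hD₁.pos (pow_pos hm.pos 2)).ne'⟩
  have hdv : ∀ a : ℕ, a ∣ D₁ → (a : ℤ) ∣ discr K := fun a h => Int.natCast_dvd.2 (by
    rw [hD]
    exact h.mul_right _)
  refine ⟨D₁ * m ^ 2, hne, hD₁.mul hm.pow, ?_, fun l hl hdl hu => ?_, fun l hl hu hdl => ?_⟩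
  · by_cases hσ : Nonempty (K →+* ℝ)
    · obtain ⟨σ₁⟩ := hσ
      obtain ⟨σ₂, hσ⟩ := H20.exists_real hK σ₁
      obtain ⟨t, s, hη⟩ := hE K hK σ₁ σ₂ hσ
      obtain ⟨E', i1, i2, i3, i4, i5, i6, hp⟩ :=
        ext_split E (Polynomial.cyclotomic (2 ^ (s + 1)) E)
      haveI : CharZero E' := charZero_of_injective_algebraMap (algebraMap ℚ_[2] E').injective
      rw [Polynomial.map_cyclotomic] at hp
      obtain ⟨ζ, hζ⟩ := hp.exists_eval_eq_zero (by
        rw [Polynomial.degree_cyclotomic]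
        exact_mod_cast (Nat.totient_pos.2 (by positivity)).ne')
      haveI : NeZero (((2 ^ (s + 1) : ℕ)) : E') := ⟨by exact_mod_cast (by positivity)⟩
      obtain ⟨η, hη1, hη2⟩ := hη E' ζ (Polynomial.isRoot_cyclotomic_iff.1 hζ)
      let ψ' : Ideal (𝓞 K) →* E' := ((algebraMap E E' : E →* E').comp ψ) * η
      have hψ' : ∀ 𝔞, ψ' 𝔞 = algebraMap E E' (ψ 𝔞) * η 𝔞 := fun _ => rfl
      have hdd : discr K = ((D₁ * 2 ^ e : ℕ) : ℤ) := by
        have := H20.discr_pos hK σ₁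
        rw [← hD]; omega
      obtain ⟨c, hcc⟩ := H353.main3 K D₁ e m σ₁ σ₂ hσ hdd hD₁ hm E' ψ' (by
        intro ε hε
        obtain ⟨u, hu⟩ := hc2 ε hε
        refine ⟨u + t, fun α hα => ?_⟩
        have h1 := hu α (dvd_trans (Nat.cast_dvd_cast (Dvd.intro (2 ^ t) (by ring))) hα)
        rw [hψ', hη1 α (dvd_trans (Nat.cast_dvd_cast (Dvd.intro (2 ^ u * m) (by ring))) hα)]
        rw [← norm_algebraMap' E', map_sub, map_one] at h1
        split_ifs
        · rwa [mul_one]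
        · rwa [show ∀ x : E', x * -1 - -1 = -(x - 1) from fun x => by ring, norm_neg])
      refine res_of j hcg hM.int hi₀ hr hD ψ hatt hnr ψ' (fun 𝔞 h => ?_)
        (fun ℓ => jacobiSym ((D₁ * 2 ^ e : ℕ) : ℤ) ℓ) (fun ℓ => by simp only [hdd]) c hcc
      rw [hψ', mul_comm]
      refine near_mul (near_of_pow (s + 1) (hη2 𝔞 ?_)) (by rw [norm_algebraMap', hnr 𝔞 h])
      refine h.of_isCoprime_of_dvd_right ?_
      exact ⟨Ideal.span {(m : 𝓞 K)}, by
        rw [Ideal.span_singleton_mul_span_singleton, Nat.cast_mul]⟩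
    · have hcx : NumberField.IsTotallyComplex K := by
        refine ⟨fun w => ?_⟩
        rw [← NumberField.InfinitePlace.not_isReal_iff_isComplex]
        intro hw
        exact hσ ⟨NumberField.InfinitePlace.embedding_of_isReal hw⟩
      obtain ⟨E', i1, i2, i3, i4, i5, i6, ι, -⟩ := H20.ext2 K E 0
      let ψ' : Ideal (𝓞 K) →* E' := (algebraMap E E' : E →* E').comp ψ
      have hψ' : ∀ 𝔞, ψ' 𝔞 = algebraMap E E' (ψ 𝔞) := fun _ => rfl
      have hdd : discr K = -((D₁ * 2 ^ e : ℕ) : ℤ) := by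
        have := H20.discr_neg hK
        rw [← hD]; omega
      obtain ⟨c, hcc⟩ := X.MAIN2 K D₁ e hdd hD₁ E' ι m hm ψ' (by
        intro ε hε
        obtain ⟨u, hu⟩ := hc2 ε hε
        refine ⟨u, fun α hα => ?_⟩
        rw [hψ', ← map_one (algebraMap E E'), ← map_sub, norm_algebraMap']
        exact hu α hα)
      refine res_of j hcg hM.int hi₀ hr hD ψ hatt hnr ψ' (fun 𝔞 h => by rw [hψ']; simp)
        (fun ℓ => X.chiD (D₁ * 2 ^ e) ℓ) (fun ℓ => ?_) c hcc
      have h1 : (0 : ℤ) < ((ℓ.1 : ℕ) : ℤ) := by exact_mod_cast ℓ.2.1.pos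
      simp only [X.chiD, Int.sign_eq_one_of_pos h1, Int.natAbs_natCast, one_mul, hdd]
  · have hu₀ : UnrAt r₀ l := fun P hP hlP g hg => hker g (hu g ⟨P, hP, hlP, hg⟩)
    rcases (Nat.Prime.dvd_mul hl).1 hdl with h | h
    · exact H916.ramified_of_dvd_discr j hK hr hl (hdv l h) hu₀
    · obtain ⟨P, hP, hpP, g, hg, hne⟩ := hmp l hl (hl.dvd_of_dvd_pow h)
      exact hne (hle g (hu₀ P hP hpP g hg))
  · have hlm : ¬ l ∣ m := by
      intro h
      obtain ⟨P, hP, hpP, g, hg, hne⟩ := hmp l hl h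
      have h1 := hu P hP hpP g fun x hx => by simpa using P.add_mem (hg x) hx
      have h2 := lt_sub h1 (cg_tr hcg g)
      have h3 := lt_sub (hd g) (cg_det hcg hM.int hi₀ g)
      rw [sub_sub_cancel, Matrix.trace_fin_two] at h2
      rw [sub_sub_sub_cancel_left, Matrix.det_fin_two, (hdia g g.2).1, zero_mul, sub_zero] at h3
      refine hne (Units.ext ?_)
      rw [hχ]
      refine eq_one_of hn (hdia g g.2).2.2 (lt_of_sq ?_)
      rw [show ∀ a : E, (a - 1) ^ 2 = (a + (r₀ g : Matrix (Fin 2) (Fin 2) E) 1 1) * a -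
        (a * (r₀ g : Matrix (Fin 2) (Fin 2) E) 1 1 - 1) - 2 * a from fun a => by ring]
      exact lt_sub (lt_sub (lt_mul h2 (hi₀ g 0 0)) h3) (lt_mul two_lt (hi₀ g 0 0))
    have h1 : l ^ 2 ∣ D₁ := (Nat.Coprime.pow 2 2
      ((Nat.Prime.coprime_iff_not_dvd hl).2 hlm)).dvd_of_dvd_mul_right hdl
    refine hQ K hK l hl ?_ (by exact_mod_cast hdv _ h1)
    rintro rfl
    exact (Nat.not_even_iff_odd.2 hD₁) (even_iff_two_dvd.2 ((dvd_pow_self 2 two_ne_zero).trans h1))

section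

variable {E : Type} [NontriviallyNormedField E] [NormedAlgebra ℚ_[2] E] [IsUltrametricDist E]
  [FiniteDimensional ℚ_[2] E] {r : GQ →* GL (Fin 2) E} {M : Subgroup GQ}

theorem Bal.opn (h : Bal r M) (hc : Continuous r) : IsOpen (M : Set GQ) := by
  have ho : IsOpen {g : GQ | ‖(r g : Matrix (Fin 2) (Fin 2) E) 0 0 - 1‖ < 1} :=
    isOpen_lt (((Units.continuous_val.comp hc).matrix_elem 0 0).sub continuous_const).norm
      continuous_const
  refine Subgroup.isOpen_of_mem_nhds M (g := 1)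
    (Filter.mem_of_superset (ho.mem_nhds (by simp)) fun g hg => ?_)
  by_contra hn
  have h1 := lt_sub (h.ant g hn).1 hg
  rw [sub_sub_cancel, norm_one] at h1
  exact lt_irrefl _ h1

theorem Bal.index (h : Bal r M) {c : GQ} (hc : c ∉ M) : M.index = 2 := by
  rw [Subgroup.index_eq_two_iff]
  refine ⟨c, fun b => ?_⟩
  by_cases hb : b ∈ M
  · exact Or.inr ⟨hb, fun e => hc (by simpa using M.mul_mem (M.inv_mem hb) e)⟩
  · exact Or.inl ⟨h.idx _ _ hb hc, hb⟩

theorem Bal.mo (h : Bal r M) (hc : Continuous r) {c : GQ} (h1 : c ∉ M) : Mo r M :=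
  ⟨h.int, h.opn hc, h.index h1, h.dia, h.ant, c, h1⟩

/-- inertia at an odd prime fixes the eighth roots of unity -/
theorem cy_inert {l : ℕ} (hl : l.Prime) (h2 : l ≠ 2) {g : GQ} (hg : G.Inert l g) : Cy8 g := by
  obtain ⟨P, hP, hlP, hg⟩ := hg
  intro ζ hζ
  refine H811.L3.inert_zeta (by norm_num : 0 < 8) hl ?_ P hP hlP hg ζ hζ
  exact Nat.Coprime.pow_right 3 ((Nat.coprime_primes hl Nat.prime_two).2 h2)

/-- the residual representation is ramified at an odd prime -/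
theorem Bal.ram (h : Bal r M) (hc : Continuous r) (hd : DetOne r) :
    ∃ l : ℕ, l.Prime ∧ l ≠ 2 ∧ ¬ RUnr r l := by
  by_contra hn
  push Not at hn
  have hs : ∀ g, (∀ i j, ‖((r g : Matrix (Fin 2) (Fin 2) E) - 1) i j‖ < 1) →
      ‖(r g : Matrix (Fin 2) (Fin 2) E) 0 0 - (r g : Matrix (Fin 2) (Fin 2) E) 1 1‖ < 1 := by
    intro g hg
    have := lt_sub (hg 0 0) (hg 1 1)
    simpa using this
  have ho : IsOpen {g : GQ | ∀ a b, ‖((r g : Matrix (Fin 2) (Fin 2) E) - 1) a b‖ < 1} := by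
    simp only [Set.setOf_forall]
    refine isOpen_iInter_of_finite fun a => isOpen_iInter_of_finite fun b => ?_
    refine isOpen_lt (Continuous.norm ?_) continuous_const
    exact ((Units.continuous_val.comp hc).sub continuous_const).matrix_elem a b
  obtain ⟨g₀, hg₀, -, -, hne⟩ := h.reg
  by_cases hM : ∀ g, g ∈ M
  · let f := (Ideal.Quotient.mk (maximalIdeal (Ob E) ^ 1)).mapMatrix.toMonoidHom.comp
      (intg r h.int)
    obtain ⟨N₀, _, h1, hL⟩ := P022F.Th.th h.int (fun g => (h.dia g (hM g)).2) ⟨g₀, hne⟩ hd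
      ⟨W.kr f, W.kr_open (intg_open hc h.int 1), fun g hg => by
        have h1 : f g = 1 := (W.mem_kr f g).1 hg
        have h2 : intg r h.int g 0 0 - intg r h.int g 1 1 ∈ maximalIdeal (Ob E) ^ 1 :=
          Ideal.Quotient.eq.1 (((congrFun (congrFun h1 0) 0).trans (by simp)).trans
            (congrFun (congrFun h1 1) 1).symm)
        rw [pow_one, max_Ob] at h2
        exact h2⟩ {2} fun p hp h2 P hP hpP g hg =>
          hs g (hn p hp (by simpa using h2) g ⟨P, hP, hpP, hg⟩)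
    obtain ⟨l, hl, hd⟩ := Nat.exists_prime_and_dvd h1
    exact hL.ram l hl hd (hn l hl fun e => hL.odd.not_two_dvd_nat (e ▸ hd))
  · push Not at hM
    obtain ⟨c, hcM⟩ := hM
    obtain ⟨K, _, _, j, s, d, hK, hK2, hd', hs'⟩ := H279.Sv.quad M (h.opn hc) (h.index hcM)
      fun l hl h6 P hP hlP g hg => h.cyc g (cy_inert hl (by
        rintro rfl
        exact h6 (by norm_num)) ⟨P, hP, hlP, hg⟩)
    subst hK
    let r0 := intg r h.int
    let π := residue (Ob E)
    have mk : ∀ i : Fin 2, ∃ χ : GK j →* (ResidueField (Ob E))ˣ,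
        ∀ g : GK j, (χ g : ResidueField (Ob E)) = π (r0 g i i) := fun i => by
      let χ₀ : GK j →* ResidueField (Ob E) :=
        { toFun := fun g => π (r0 g i i)
          map_one' := by simp
          map_mul' := fun g k => by
            have z01 : π (r0 g 0 1) = 0 := res_Ob.2 (h.dia g g.2).1
            have z10 : π (r0 g 1 0) = 0 := res_Ob.2 (h.dia g g.2).2
            rw [Subgroup.coe_mul, map_mul, Matrix.mul_apply, Fin.sum_univ_two, map_add, map_mul,
              map_mul]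
            fin_cases i
            · simp [z01]
            · simp [z10] }
      exact ⟨χ₀.toHomUnits, fun _ => rfl⟩
    obtain ⟨χ₁, h1⟩ := mk 0
    obtain ⟨χ₂, h2⟩ := mk 1
    have key : ∀ g : GK j, (χ₁ / χ₂) g = 1 ↔ ‖(r g : Matrix (Fin 2) (Fin 2) E) 0 0 -
        (r g : Matrix (Fin 2) (Fin 2) E) 1 1‖ < 1 := fun g => by
      rw [MonoidHom.div_apply, div_eq_one, Units.ext_iff, h1, h2, ← sub_eq_zero, ← map_sub]
      exact res_Ob
    have h3 := H315.Sv.core P022.Sv.odd j s d hK2 hd' hs' (χ₁ / χ₂) (h.opn hc) _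
      (ho.mem_nhds fun a b => by simp) (fun g hg => (key g).2 (hs g hg))
      (fun l hl hl2 P hP hlP g hg => (key g).2 (hs g (hn l hl hl2 g ⟨P, hP, hlP, hg⟩)))
      ⟨g₀, h.cyc g₀ hg₀⟩
    exact ((key _).1 h3).ne hne

end

/-- **TH** -/
theorem thG : TH := by
  intro E _ _ _ _ r M hc hS h hd
  by_cases hM : ∀ g, g ∈ M
  · obtain ⟨g₀, -, -, -, hne⟩ := h.reg
    have e : tws 1 r = r := MonoidHom.ext fun g => Units.ext (by
      ext i j
      rw [tws_ent, MonoidHom.one_apply, Units.val_one, one_mul])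
    obtain ⟨N₀, i, -, hL⟩ := P022F.Th.thT hc hS h.int (fun g => (h.dia g (hM g)).2) ⟨g₀, hne⟩ 1
      (fun g => by simp) (by rwa [e])
    exact ⟨N₀, i, e ▸ hL⟩
  · push Not at hM
    obtain ⟨c, hcM⟩ := hM
    exact thM E r M hc hS (h.mo hc hcM) hd

end Vale.Agent.P022G.Top
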