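import Vale.Agent.P022G.Fp.Base

/-!
P022G: removing the auxiliary primes from the fixed data.
-/

set_option linter.all false

noncomputable section

namespace Vale.Agent.P022G.Top

open Vale.Agent.P022 Vale.Agent.P022D Vale.Agent.P022D.R
open Vale.Agent.P022E.Loc (Pl Wc)
open Vale.Agent.P022E.Fm (Su)

variable {O F : Type} [CommRing O] [Field F]

/-- the global data without the primes of `A` -/
def dS (S : Dat O F) (A : Finset ℕ) (h : S.l0 ∉ A) : Dat O F :=
  { S with T := S.T \ A, hl0 := Finset.mem_sdiff.2 ⟨S.hl0, h⟩ }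

/-- the local data without the primes of `A` -/
def dL (L : Pl O) (A : Finset ℕ) : Pl O := { L with C := L.C \ A }

/-- the data of the forms side without the primes of `A` -/
def dU (U : Su O F) (A : Finset ℕ) (h : U.S.l0 ∉ A) : Su O F :=
  ⟨dS U.S A h, dL U.L A, U.ϖ, U.i, U.NW, ∏ l ∈ U.L.C \ A, l, U.N0, U.z ^ ∏ a ∈ A, a, U.om⟩

variable {S : Dat O F} {L : Pl O} {A : Finset ℕ}

theorem wc_drop (h : S.l0 ∉ A) {l : ℕ} {e v : Fin 2 → O} {u : O} :
    Wc (dS S A h) (dL L A) l e u v ↔ Wc S L l e u v :=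
  ⟨fun k => ⟨k.odd, k.tm, k.inv, k.chi⟩, fun k => ⟨k.odd, k.tm, k.inv, k.chi⟩⟩

theorem sub_drop {l : ℕ} (h : l ∈ (dL L A).W ∪ (dL L A).C) : l ∈ L.W ∪ L.C :=
  Finset.union_subset_union_right Finset.sdiff_subset h

theorem ok_drop [IsLocalRing O] (H : L.OkG S) (hA : A ⊆ L.C) (h : S.l0 ∉ A) :
    (dL L A).OkG (dS S A h) := by
  refine ⟨H.ker, H.dh, H.det, ?_, H.dj.mono_right Finset.sdiff_subset,
    fun l hl => H.pr l (sub_drop hl), fun l hl => H.hP l (sub_drop hl), H.h2, H.cj,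
    fun l hl => H.tm l (sub_drop hl), H.dg, H.ad, H.reg,
    fun l hl => H.uni l (Finset.sdiff_subset hl), H.lift, H.cont, H.odd, H.ty,
    fun l hl e u v hc a b m w h1 h2 h3 h4 x h5 I hI => ?_⟩
  · change S.T \ A = insert 0 (insert 2 (L.W ∪ L.C \ A))
    have n0 : 0 ∉ A := fun k => (H.pr 0 (Finset.mem_union_right _ (hA k))).1.ne_zero rfl
    have n2 : 2 ∉ A := fun k => (H.pr 2 (Finset.mem_union_right _ (hA k))).2 rfl
    rw [H.hT, Finset.insert_sdiff_of_notMem _ n0, Finset.insert_sdiff_of_notMem _ n2,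
      Finset.union_sdiff_distrib, Finset.sdiff_eq_self_of_disjoint (H.dj.mono_right hA)]
  · have k := H.wl l hl e u v ((wc_drop h).1 hc) a b m w h1 h2 h3 h4 x h5 I hI
    exact ⟨k.e1_def, k.e2_def, k.dl_def, k.tg, k.dg, k.dl_pow, k.tr, k.split, k.inert, k.ram⟩

end Vale.Agent.P022G.Top
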