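import Vale.Agent.P022G.Top.Gal
import Vale.Agent.P022G.Rows
import Vale.Agent.P022G.Ax.X
import Vale.Agent.P022D.Loc.Expl
import Vale.Agent.P022D.W.Odd

/-!
P022G: the data of the Galois side, final form.
-/

set_option linter.all false

open Matrix NumberField IsLocalRing

noncomputable section

namespace Vale.Agent.P022G.Top

open Vale.Agent.P022
open Vale.Agent.P027M.S (mx Inert)
open Vale.Agent.P022D.Sel (M2)
open Vale.Agent.P022D.Dk (Cy8 H8)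
open Vale.Agent.P022D.Top hiding COREn CORE MAIN TH END Su
open Vale.Agent.P022E.Loc (Pl Rm)
open Vale.Agent.P022E.Fm (Su)
open Vale.Agent.P022E.GW (Ov Fb)
open Vale.Agent.P022G.Obs (FX)

variable {E : Type} [NontriviallyNormedField E] [IsUltrametricDist E]
  [NormedAlgebra ℚ_[2] E] [FiniteDimensional ℚ_[2] E] {r : GQ →* GL (Fin 2) E} {M : Subgroup GQ}

theorem Bal.ne (hM : Bal r M) {g : GQ}
    (h : ‖(r g : Matrix (Fin 2) (Fin 2) E) 0 0 - (r g : Matrix (Fin 2) (Fin 2) E) 1 1‖ = 1) :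
    mx (rbO r hM.int) g 0 0 ≠ mx (rbO r hM.int) g 1 1 := fun e => by
  have h1 : residue (Ob E) (intg r hM.int g 0 0 - intg r hM.int g 1 1) = 0 := by
    rw [map_sub]
    exact sub_eq_zero.2 e
  exact (res_Ob.1 h1).ne h

theorem Bal.dh (hM : Bal r M) (hc : Continuous r) : Loc.Dh (rbO r hM.int) M :=
  ⟨fun g hg => ⟨rbO_zero.2 (hM.dia g hg).1, rbO_zero.2 (hM.dia g hg).2⟩,
    fun g hg => ⟨rbO_zero.2 (hM.ant g hg).1, rbO_zero.2 (hM.ant g hg).2⟩, rbO_open hc,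
    hM.reg.imp fun g h => ⟨hM.cyc g h.1, h.1, hM.ne h.2.2.2⟩, hM.cyc⟩

/-- a regular element of pro-odd order -/
theorem Bal.odd (hM : Bal r M) (hc : Continuous r) : ∃ g, Cy8 g ∧
    (r g : Matrix (Fin 2) (Fin 2) E) 0 1 = 0 ∧ (r g : Matrix (Fin 2) (Fin 2) E) 1 0 = 0 ∧
    mx (rbO r hM.int) g 0 0 ≠ mx (rbO r hM.int) g 1 1 ∧ P022D.W.ProOdd g := by
  obtain ⟨g, h1, h2, h3, h4⟩ := hM.reg
  have cm : Continuous fun g => (r g : Matrix (Fin 2) (Fin 2) E) := Units.continuous_val.comp hc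
  let K : Subgroup GQ := H8 ⊓ (Subgroup.centralizer {r g}).comap r
  have e : (((Subgroup.centralizer {r g}).comap r : Subgroup GQ) : Set GQ) =
      {x | (r g : Matrix (Fin 2) (Fin 2) E) * r x = r x * r g} := by
    ext x
    refine Subgroup.mem_centralizer_iff.trans ⟨fun h => congrArg Units.val (h _ rfl),
      fun h y hy => ?_⟩
    rw [Set.mem_singleton_iff.1 hy]
    exact Units.ext h
  have hK : IsClosed (K : Set GQ) := (H8.isClosed_of_isOpen Ax.h8_open).inter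
    (e ▸ isClosed_eq (continuous_const.mul cm) (cm.mul continuous_const) :
      IsClosed (((Subgroup.centralizer {r g}).comap r : Subgroup GQ) : Set GQ))
  let f : GQ →* M2 (ResidueField (Ob E)) := (Units.coeHom _).comp (rbO r hM.int)
  have ho : IsOpen {x : GQ | f x = 1} := by
    convert rbO_open (h := hM.int) hc using 1
    ext x
    exact (Units.ext_iff (u := rbO r hM.int x) (v := 1)).symm
  have hd := (hM.dh hc).dg g (hM.cyc g h1)
  obtain ⟨m, hm, em⟩ := P022D.W.odd_order (rb := f) CharTwo.two_eq_zero ho hd.1 hd.2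
  obtain ⟨x, hx, ex, ox⟩ := P022D.W.exists_proOdd f ho K hK (g := g)
    ⟨h1, Subgroup.mem_centralizer_iff.2 fun y hy => by rw [Set.mem_singleton_iff.1 hy]⟩ hm em
  have c : (r g : Matrix (Fin 2) (Fin 2) E) * r x = r x * r g :=
    congrArg Units.val (Subgroup.mem_centralizer_iff.1 hx.2 _ rfl)
  have ne : (r g : Matrix (Fin 2) (Fin 2) E) 0 0 - (r g : Matrix (Fin 2) (Fin 2) E) 1 1 ≠ 0 :=
    fun k => by rw [k, norm_zero] at h4; exact zero_ne_one h4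
  have c01 := congrFun (congrFun c 0) 1
  have c10 := congrFun (congrFun c 1) 0
  rw [Matrix.mul_apply, Matrix.mul_apply, Fin.sum_univ_two, Fin.sum_univ_two] at c01 c10
  rw [h2] at c01
  rw [h3] at c10
  refine ⟨x, hx.1, (mul_eq_zero.1 ?_).resolve_left ne, (mul_eq_zero.1 ?_).resolve_left ne, ?_, ox⟩
  · linear_combination c01
  · linear_combination -c10
  · rw [show mx (rbO r hM.int) x = mx (rbO r hM.int) g from ex]
    exact hM.ne h4

theorem Bal.tau (hM : Bal r M) (hd : DetOne r) {L : Pl (Ob E)}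
    {S : P022D.R.Dat (Ob E) (ResidueField (Ob E))} (hL : L.OkG S) {l : ℕ} (hl : l ∈ L.C)
    (hu : Uni r l) : rbO r hM.int (L.τ l) = 1 :=
  have h1 := Finset.mem_union_right L.W hl
  rbO_one.2 (hM.nuni hd (hL.pr l h1).1 (hL.pr l h1).2 hu _
    ⟨L.P l, (hL.hP l h1).1, (hL.hP l h1).2, (hL.tm l h1).tau⟩)

/-- a prime which splits in the field of the reduction is unipotent -/
theorem Bal.uni (hM : Bal r M) (hc : Continuous r) {a : ℕ} (ha : a.Prime) (h2 : a ≠ 2)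
    (h : ∀ P : Ideal (𝓞 Qb), Ov a P → (∀ s, Inert P s → rbO r hM.int s = 1) ∧
      ∀ φ, Fb a P φ → rbO r hM.int φ = 1) : Uni r a := by
  intro P hP hp g hg
  obtain ⟨τ, φ, t⟩ := P022D.Loc.Expl.tm ha h2 hP hp
  obtain ⟨N, hN⟩ := t.tame _ (rbO r hM.int) (rbO_open hc)
  obtain ⟨k, s, hs, e⟩ := hN.gen g (P022D.Loc.Expl.mem_dec ha hP hp hg)
  rw [map_mul, map_pow, (h P ⟨ha, hP, hp⟩).1 s hs, (h P ⟨ha, hP, hp⟩).2 φ t.frob, one_pow,
    one_mul] at e
  rw [← intg_tr (h := hM.int), ← res_Ob, AddMonoidHom.map_trace]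
  change (mx (rbO r hM.int) g).trace = 0
  rw [show mx (rbO r hM.int) g = 1 from congrArg Units.val e, Matrix.trace_fin_two]
  simpa using CharTwo.add_self_eq_zero (1 : ResidueField (Ob E))

/-- **the data of the Galois side** -/
theorem exCy (hc : Continuous r) (hM : Bal r M) (hd : DetOne r)
    {U : Su (Ob E) (ResidueField (Ob E))} (hU : U.L.OkG U.S) (hH : U.L.H = M) {T : Finset ℕ}
    (k : SuG r T U.S U.L.r) {X : Finset ℕ} {as : ℕ}
    (hun : ∀ l : ℕ, l.Prime → (l ∉ U.S.T ∨ l ∈ X) → UnrAt r l) (hX : X ⊆ U.L.C)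
    (big : (U.L.C \ X).card + 2 ≤ X.card)
    (one : ∀ a ∈ X, a % 8 = 1 ∧ ∀ φ, IsFrob a φ → rbO r hM.int φ = 1) (mem : as ∈ X)
    (mv : ∀ φ, IsFrob as φ →
      (∃ z : Qb, z ^ 4 = 2 ∧ φ z ≠ z) ∧ ∃ z : Qb, z ^ 8 = -4 ∧ φ z ≠ z)
    (hC : ∀ l ∈ U.L.C, Uni r l) (f1 : FX (rbO r hM.int).ker U.S.T) (f2 : FX ⊤ U.S.T) :
    ∃ (S : R.Dat (Ob E) (ResidueField (Ob E))) (a : ℕ → Ob E), S.rb = rbO r hM.int ∧
      S.T = U.S.T ∧ Cy S (gL U.L (intg r hM.int) a) X as := by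
  obtain ⟨S, a, e1, e2, h⟩ := exCx hc hM hd hU hH k hun hX big one mem mv
  obtain ⟨g, h1, h2, h3, h4, h5⟩ := hM.odd hc
  have hg := hM.cyc g h1
  have d := (hM.dh hc).dg g hg
  refine ⟨⟨S.red, S.rb, S.T, g, S.l0, S.surj, e1 ▸ d.1, e1 ▸ d.2, e1 ▸ h4, S.hl0⟩, a, e1, e2,
    ⟨⟨h.ok.ker, h.ok.dh, h.ok.det, h.ok.hT, h.ok.dj, h.ok.pr, h.ok.hP, h.ok.h2, h.ok.cj, h.ok.tm,
      h.ok.reg, h.ok.uni, h.ok.lift, h.ok.cont, h.ok.odd, h.ok.ty⟩,
      ⟨(hH ▸ hg : g ∈ U.L.H), h1, Subtype.ext h2, Subtype.ext h3⟩, h.irr, h.unr, h.sub, h.big, h.one,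
      h.mem, h.mv1, h.mv2⟩, fun Γ _ _ f hf => h5.pow f hf, fun l hl => ?_, ?_, ?_⟩
  · change mx S.rb (U.L.τ l) = 1
    rw [e1]
    exact congrArg Units.val (hM.tau hd hU hl (hC l hl))
  · change FX S.rb.ker S.T
    rwa [e1, e2]
  · change FX ⊤ S.T
    rwa [e2]

end Vale.Agent.P022G.Top
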