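import Vale.Agent.P022G.Top.Setup
import Vale.Agent.P022G.Top.Drop
import Vale.Agent.P022D.Top.Su

/-!
P022G: the fixed data of the forms side, with and without the auxiliary primes.
-/

set_option linter.all false

open Matrix NumberField IsLocalRing

noncomputable section

namespace Vale.Agent.P022G.Top

open Vale.Agent.P022 Vale.Agent.P022D Vale.Agent.P022D.R
open Vale.Agent.P027M.S (mx)
open Vale.Agent.P027M.M (ze)
open Vale.Agent.P022D.Sel (M2)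
open Vale.Agent.P022D.Top hiding COREn CORE MAIN TH END Su
open Vale.Agent.P022E.Loc (Pl Wc UniF Rm)
open Vale.Agent.P022E.Fm (Su)

/-- existence of the local data -/
def EXPLG : Prop := ∀ (O F : Type) [CommRing O] [IsLocalRing O]
  [IsAdicComplete (maximalIdeal O) O] [Field F] [Finite F] [CharP F 2] (S : Dat O F)
  (H : Subgroup GQ) (r : GQ →* M2 O) (c : GQ) (Sf : Finset ℕ),
  (∀ c, S.red c = 0 ↔ c ∈ maximalIdeal O) → IsOpen {g : GQ | S.rb g = 1} →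
  (∀ g, ∃ a b, (mx S.rb g).trace = a + b ∧ (mx S.rb g).det = a * b) →
  (mx S.rb S.g1 1 0 ≠ 0 ∨ ∀ g, mx S.rb g 1 0 = 0) → (∀ g, (mx S.rb g).det = 1) →
  S.T = insert 0 (insert 2 Sf) → (∀ l ∈ Sf, l.Prime ∧ l ≠ 2) → IsConj c →
  (∀ g, (r g).map S.red = mx S.rb g) →
  (∀ k : ℕ, IsOpen {g : GQ | (r g).map (Ideal.Quotient.mk (maximalIdeal O ^ k)) = 1}) →
  (r c).det = -1 →
  ∃ L : Pl O, L.OkG S ∧ L.H = H ∧ L.r = r ∧ L.c = c ∧ L.W ∪ L.C = Sf ∧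
    (∀ l ∈ Sf, l ∈ L.C ↔ UniF S.rb l) ∧ ∀ l ∈ L.W, ∃ e u v, Wc S L l e u v

variable {E : Type} [NontriviallyNormedField E] [IsUltrametricDist E]
  [NormedAlgebra ℚ_[2] E] [FiniteDimensional ℚ_[2] E] [V.Co (Ob E)]

theorem mkSu {R N₀ : ℕ} [NeZero R] [NeZero N₀] {r : GQ →* GL (Fin 2) E}
    {ω : (ZMod R)ˣ →* Eˣ} {i : ℕ} {D : Dat (Ob E) (ResidueField (Ob E))} {L : Pl (Ob E)}
    {ϖ : Ob E} (hϖ : Irreducible ϖ) (ok : L.OkG D) (red : D.red = residue (Ob E))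
    (lam : L.r D.g1 0 1 = D.lam)
    (tr : ∀ g, ((L.r g).trace : E) = (r g : Matrix (Fin 2) (Fin 2) E).trace)
    (dt : ∀ g, ((L.r g).det : E) = (r g : Matrix (Fin 2) (Fin 2) E).det)
    (hunr : ∀ l : ℕ, l.Prime → l ∉ D.T → ∀ g, G.Inert l g → L.r g = 1)
    (hR : R ∣ (∏ l ∈ L.W, l) * ∏ l ∈ L.C, l) (hN : ∀ l : ℕ, l.Prime → l ∣ N₀ → l ∈ L.W)
    (w3 : L.W.Nonempty) (hL : Lev r N₀) (hi : 1 ≤ i) (hW : DetW r R ω i)
    (hw : ∀ l ∈ L.W, ∃ e u v, Wc D L l e u v)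
    (two : ∀ l ∈ L.W, ∃ y : Ob E, IsPrimitiveRoot y (l ^ 2 - 1)) {z : Ob E}
    (hz : V.Co.j z = ze (N₀ * (∏ l ∈ L.W, l) * ∏ l ∈ L.C, l) 1) :
    Su.OkG ⟨D, L, ϖ, i, N₀ * ∏ l ∈ L.W, l, ∏ l ∈ L.C, l, N₀, z, omO ω⟩ := by
  classical
  have hker := ok.ker
  have dv : ∀ {x : Ob E}, ϖ ∣ x ↔ x ∈ maximalIdeal (Ob E) := by
    intro x
    rw [hϖ.maximalIdeal_eq, Ideal.mem_span_singleton]
  set N := N₀ * (∏ l ∈ L.W, l) * ∏ l ∈ L.C, l with hNd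
  have od : ∀ s : Finset ℕ, s ⊆ L.W ∪ L.C → Odd (∏ l ∈ s, l) := fun s hs =>
    Finset.prod_induction _ Odd (fun _ _ => Odd.mul) odd_one fun l hl =>
      (ok.pr l (hs hl)).1.odd_of_ne_two (ok.pr l (hs hl)).2
  have oW := od _ Finset.subset_union_left
  have oN : Odd N := (hL.odd.mul oW).mul (od _ Finset.subset_union_right)
  have N0 : N ≠ 0 := oN.pos.ne'
  have dR : R ∣ N := by
    rw [hNd, mul_assoc]
    exact hR.mul_left _
  have hdet : ∀ j : ℕ, ∃ a : ℕ, ∀ (g : GQ) (x : ℕ), Nat.Coprime x N →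
      Fm.Cy (2 ^ a * N) g x → ϖ ^ j ∣ (L.r g).det - omO ω x * (x : Ob E) ^ i := fun j => by
    obtain ⟨a, ha⟩ := hW (‖(ϖ : E)‖ ^ j)
      (pow_pos (norm_pos_iff.2 fun e => hϖ.ne_zero (Subtype.ext e)) j)
    refine ⟨a, fun g x hx hg => dvd_Ob.2 ?_⟩
    have h1 := ha g x (ZMod.unitOfCoprime x (hx.coprime_dvd_right dR))
      (ZMod.coe_unitOfCoprime _ _) fun z hz => hg z (by
        obtain ⟨m, hm⟩ := dR
        rw [hm, ← mul_assoc, pow_mul, hz, one_pow])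
    rw [← MulChar.ofUnitHom_coe, ZMod.coe_unitOfCoprime, ← dt] at h1
    rw [SubmonoidClass.coe_pow, norm_pow]
    exact h1.le
  have homp : ∀ x x' : ℕ, x ≡ x' [MOD N] → omO ω x = omO ω x' := fun x x' h =>
    Subtype.ext (congrArg (MulChar.ofUnitHom ω)
      ((ZMod.natCast_eq_natCast_iff _ _ _).2 (h.of_dvd dR)))
  have hodd : ∀ x : ℕ, Odd x → Nat.Coprime x N → ϖ ∣ omO ω x - 1 := fun x ox hx => by
    obtain ⟨a, ha⟩ := hdet 1
    obtain ⟨g, hg⟩ := ex_cy (mul_ne_zero (pow_ne_zero a two_ne_zero) N0)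
      (Nat.Coprime.mul_right (Nat.Coprime.pow_right a (Nat.coprime_two_right.2 ox)) hx)
    have h1 := ha g x hx hg
    rw [pow_one] at h1
    have h2 : ϖ ∣ (L.r g).det - 1 := by
      rw [dv, ← hker, map_sub, map_one, RingHom.map_det, RingHom.mapMatrix_apply, ok.lift, ok.det,
        sub_self]
    have h3 : ϖ ∣ (x : Ob E) ^ i - 1 := by
      obtain ⟨m, hm⟩ := ox.pow (n := i)
      have h4 := congrArg (Nat.cast : ℕ → Ob E) hm
      push_cast at h4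
      rw [h4, add_sub_cancel_right]
      exact (dv.2 (max_Ob.2 norm_two_lt)).mul_right _
    have h4 := ((h2.sub h1).sub (h3.mul_left (omO ω x)))
    rwa [show (L.r g).det - 1 - ((L.r g).det - omO ω x * (x : Ob E) ^ i) -
      omO ω x * ((x : Ob E) ^ i - 1) = omO ω x - 1 by ring] at h4
  refine ⟨ok, ⟨hϖ.ne_zero, hϖ.not_isUnit, fun a ha => dv.2 ha⟩, hi, rfl,
    (hL.odd.mul oW).pos.ne', fun l hl => ?_, Or.inl w3, hz, two, Subtype.ext ?_,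
    fun x x' => Subtype.ext ?_, homp, hdet, hunr, hw, ?_, ?_, ?_, ?_, fun l hl h => ?_⟩
  · change l ∣ N₀ * ∏ l ∈ L.W, l ↔ l ∈ L.W
    refine ⟨fun h => ?_, fun h => (Finset.dvd_prod_of_mem _ h).mul_left _⟩
    rcases (Nat.Prime.dvd_mul hl).1 h with h | h
    · exact hN l hl h
    · obtain ⟨p, hp, h⟩ := (Prime.dvd_finsetProd_iff hl.prime _).1 h
      rwa [(Nat.prime_dvd_prime_iff_eq hl (ok.pr p (Finset.mem_union_left _ hp)).1).1 h]
  · change MulChar.ofUnitHom ω ((1 : ℕ) : ZMod R) = 1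
    rw [Nat.cast_one, map_one]
  · change MulChar.ofUnitHom ω ((x * x' : ℕ) : ZMod R) = _
    rw [Nat.cast_mul, map_mul]
    rfl
  · change ∀ x : ℕ, Nat.Coprime x N → ϖ ∣ omO ω x - 1
    intro x hx
    rcases Nat.even_or_odd x with h | h
    · rw [homp x (x + N) (by simp [Nat.ModEq])]
      exact hodd _ (h.add_odd oN) (by simpa using hx)
    · exact hodd x h hx
  · change D.red D.lam = mx D.rb D.g1 0 1
    rw [← lam, ← ok.lift]
    rfl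
  · change N₀ ∣ N₀ * (∏ l ∈ L.W, l) * ∏ l ∈ L.C, l
    exact (dvd_mul_right _ _).mul_right _
  · intro _
    obtain ⟨k, hk⟩ := hL.res
    refine ⟨k, fun X hX => dv.2 (max_Ob.2 ?_)⟩
    have h1 := hk (fun ℓ => Fm.fr ℓ.1)
      (fun ℓ => Classical.epsilon_spec (H20.exists_isFrob ℓ.2.1)) X hX
    refine lt_of_eq_of_lt (congrArg norm ?_) h1
    clear h1 hX
    induction X using FreeAlgebra.induction with
    | grade0 n => rw [AlgHom.commutes, AlgHom.commutes, eq_intCast, eq_intCast, Subring.coe_intCast]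
    | grade1 s =>
      rw [FreeAlgebra.lift_ι_apply, FreeAlgebra.lift_ι_apply]
      rcases s with ℓ | ℓ
      · exact tr _
      · exact dt _
    | mul p q hp hq => rw [map_mul, map_mul, Subring.coe_mul, hp, hq]
    | add p q hp hq => rw [map_add, map_add, Subring.coe_add, hp, hq]
  · exact absurd (hN l (ok.pr l (Finset.mem_union_right _ hl)).1 h)
      fun k => Finset.disjoint_left.1 ok.dj k hl

/-- **the fixed data exist** -/
theorem exSu (hX : EXPLG) {R N₀ : ℕ} [NeZero R] [NeZero N₀] {r : GQ →* GL (Fin 2) E}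
    {M : Subgroup GQ} {S A : Finset ℕ} {ω : (ZMod R)ˣ →* Eˣ} {i : ℕ} (hc : Continuous r)
    (ho : OddRep r) (hM : Bal r M) (hd : DetOne r) (hS : ∀ l ∈ S, l.Prime ∧ l ≠ 2)
    (hR : R = ∏ l ∈ S, l) (hu : ∀ p : ℕ, p.Prime → p ≠ 2 → p ∉ S → UnrAt r p) (hL : Lev r N₀)
    (hi : 1 ≤ i) (hW : DetW r R ω i) (hA : ∀ a ∈ A, a.Prime ∧ a ≠ 2 ∧ a ∉ S ∧ Uni r a) {ζ : E}
    (hζ : IsPrimitiveRoot ζ (nn (R * ∏ a ∈ A, a) N₀)) :
    ∃ (U : Su (Ob E) (ResidueField (Ob E))) (h0 : U.S.l0 ∉ A), U.OkG ∧ (dU U A h0).OkG ∧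
      Irreducible U.ϖ ∧ (dU U A h0).N = N₀ * R ∧ A ⊆ U.L.C ∧ U.L.W ∪ U.L.C = S ∪ A ∧
      U.L.H = M ∧ (∀ l ∈ U.L.C, Uni r l) ∧ U.L.W.Nonempty ∧
      SuG r (insert 0 (insert 2 (S ∪ A))) U.S U.L.r := by
  classical
  obtain ⟨D₀, r', h₀⟩ := setupG hc hM hd {0} (Finset.singleton_nonempty _)
  have l0 : D₀.l0 = 0 := Finset.mem_singleton.1 (h₀.hT ▸ D₀.hl0)
  let D : Dat (Ob E) (ResidueField (Ob E)) :=
    { D₀ with T := insert 0 (insert 2 (S ∪ A)), hl0 := l0 ▸ Finset.mem_insert_self _ _ }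
  have hD : SuG r (insert 0 (insert 2 (S ∪ A))) D r' :=
    ⟨h₀.red, rfl, h₀.opn, h₀.det, h₀.eig, h₀.wl, h₀.lift, h₀.cont, h₀.tr, h₀.dt, h₀.dg, h₀.nm,
      h₀.one, h₀.cy, h₀.g0, h₀.d0, h₀.d1, h₀.xx⟩
  have h0 : D.l0 ∉ A := fun k => (hA _ k).1.ne_zero l0
  obtain ⟨c, hcj⟩ := H443.exists_isConj
  obtain ⟨ϖ, hϖ⟩ := IsDiscreteValuationRing.exists_irreducible (Ob E)
  haveI := (cpl_Ob (E := E))
  have hker : ∀ x, D.red x = 0 ↔ x ∈ maximalIdeal (Ob E) := fun x => by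
    rw [hD.red, residue_eq_zero_iff]
  have hSA : ∀ l ∈ S ∪ A, l.Prime ∧ l ≠ 2 := fun l hl =>
    (Finset.mem_union.1 hl).elim (hS l) fun k => ⟨(hA l k).1, (hA l k).2.1⟩
  obtain ⟨L, ok, hH, rfl, -, hWC, hC, hw⟩ := hX (Ob E) _ D M r' c (S ∪ A) hker hD.opn hD.eig hD.wl
    hD.det hD.hT hSA hcj hD.lift hD.cont (Subtype.ext (by rw [hD.dt, ho c hcj]; rfl))
  have un : ∀ l, UniF D.rb l ↔ Uni r l := fun l => by
    refine forall_congr' fun P => forall_congr' fun _ => forall_congr' fun _ =>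
      forall_congr' fun g => forall_congr' fun _ => ?_
    rw [← ok.lift, ← hD.tr, ← max_Ob, ← hker, Matrix.trace_fin_two, Matrix.trace_fin_two, map_add]
    rfl
  have hAC : A ⊆ L.C := fun a ha =>
    (hC a (Finset.mem_union_right _ ha)).2 ((un a).2 (hA a ha).2.2.2)
  have hCU : ∀ l ∈ L.C, Uni r l := fun l hl =>
    (un l).1 ((hC l (hWC ▸ Finset.mem_union_right _ hl)).1 hl)
  have hram : ∀ l : ℕ, l.Prime → l ≠ 2 → ¬ RUnr r l → l ∈ L.W := fun l hl h2 h => by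
    have h1 : l ∈ L.W ∪ L.C := by
      rw [hWC]
      refine Finset.mem_union_left _ (by_contra fun k => h fun g hg a b => ?_)
      obtain ⟨P, hP, hlP, hg⟩ := hg
      rw [hu l hl h2 k P hP hlP g hg]
      simp
    exact (Finset.mem_union.1 h1).resolve_right fun k => h (hM.nuni hd hl h2 (hCU l k))
  have hN : ∀ l : ℕ, l.Prime → l ∣ N₀ → l ∈ L.W := fun l hl h =>
    hram l hl (fun e => hL.odd.not_two_dvd_nat (e ▸ h)) (hL.ram l hl h)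
  have w3 : L.W.Nonempty := by
    obtain ⟨l, a, b, c⟩ := hM.ram hc hd
    exact ⟨l, hram l a b c⟩
  have hunr : ∀ l : ℕ, l.Prime → l ≠ 2 → l ∉ S → ∀ g, G.Inert l g → L.r g = 1 := by
    rintro l hl h2 hT g ⟨P, hP, hlP, hg⟩
    exact hD.one g (hu l hl h2 hT P hP hlP g hg)
  have dSA : Disjoint S A := Finset.disjoint_right.2 fun a ha => (hA a ha).2.2.1
  have eS : L.W ∪ L.C \ A = S := by
    rw [← Finset.sdiff_eq_self_of_disjoint (ok.dj.mono_right hAC), ← Finset.union_sdiff_distrib,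
      hWC, Finset.union_sdiff_cancel_right dSA]
  have eR : (∏ l ∈ L.W, l) * ∏ l ∈ L.C \ A, l = R := by
    rw [hR, ← eS, Finset.prod_union (ok.dj.mono_right Finset.sdiff_subset)]
  have eC : ∏ l ∈ L.C, l = (∏ l ∈ L.C \ A, l) * ∏ a ∈ A, a := (Finset.prod_sdiff hAC).symm
  have eR' : (∏ l ∈ L.W, l) * ∏ l ∈ L.C, l = R * ∏ a ∈ A, a := by rw [eC, ← mul_assoc, eR]
  have A0 : ∏ a ∈ A, a ≠ 0 := Finset.prod_ne_zero_iff.2 fun a ha => (hA a ha).1.ne_zero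
  have R0 : R * ∏ a ∈ A, a ≠ 0 := mul_ne_zero (NeZero.ne R) A0
  have N0 : N₀ * (R * ∏ a ∈ A, a) ≠ 0 := mul_ne_zero (NeZero.ne N₀) R0
  have n0 := nn_pos R0 (NeZero.ne N₀)
  let y : Ob E := ⟨ζ, mem_Ob.2 (norm_root n0.ne' hζ.pow_eq_one).le⟩
  have hy : IsPrimitiveRoot y (nn (R * ∏ a ∈ A, a) N₀) :=
    IsPrimitiveRoot.of_map_of_injective (f := (Ob E).subtype) hζ Subtype.val_injective
  haveI : NeZero (nn (R * ∏ a ∈ A, a) N₀) := ⟨n0.ne'⟩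
  obtain ⟨k, -, hk⟩ := (hy.map_of_injective (f := V.Co.j) V.Co.inj).eq_pow_of_pow_eq_one
    (ξ := ze (N₀ * (R * ∏ a ∈ A, a)) 1) (by
      have h1 : IsPrimitiveRoot (ze (N₀ * (R * ∏ a ∈ A, a)) 1) (N₀ * (R * ∏ a ∈ A, a)) := by
        simpa [ze] using Complex.isPrimitiveRoot_exp _ N0
      exact (h1.pow_eq_one_iff_dvd _).2 (dvd_mul_right _ _))
  have two : ∀ l ∈ L.W, ∃ y : Ob E, IsPrimitiveRoot y (l ^ 2 - 1) := fun l hl => by
    have h1 : l ∈ (R * ∏ a ∈ A, a).primeFactors := Nat.mem_primeFactors.2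
      ⟨(ok.pr l (Finset.mem_union_left _ hl)).1,
        eR' ▸ (Finset.dvd_prod_of_mem _ hl).mul_right _, R0⟩
    obtain ⟨m, hm⟩ := (Finset.dvd_prod_of_mem (fun l => l ^ 2 - 1) h1).mul_left
      (N₀ * (R * ∏ a ∈ A, a))
    exact ⟨y ^ m, hy.pow n0 (hm.trans (mul_comm _ _))⟩
  refine ⟨⟨D, L, ϖ, i, N₀ * ∏ l ∈ L.W, l, ∏ l ∈ L.C, l, N₀, y ^ k, omO ω⟩, h0,
    mkSu hϖ ok hD.red hD.nm hD.tr hD.dt (fun l hl hT => hunr l hl ?_ ?_) ⟨_, eR'⟩ hN w3 hL hi hW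
      hw two (by rw [mul_assoc, eR', map_pow, hk]),
    mkSu (D := dS D A h0) (L := dL L A) hϖ (ok_drop ok hAC h0) hD.red hD.nm hD.tr hD.dt
      (fun l hl hT => hunr l hl ?_ ?_) (dvd_of_eq eR.symm) hN w3 hL hi hW
      (fun l hl => (hw l hl).imp fun _ h => h.imp fun _ h => h.imp fun _ h => (wc_drop h0).2 h)
      two ?_, hϖ, ?_, hAC, hWC, hH, hCU, w3, hD⟩
  · rintro rfl
    exact hT (Finset.mem_insert_of_mem (Finset.mem_insert_self _ _))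
  · exact fun k => hT (Finset.mem_insert_of_mem (Finset.mem_insert_of_mem
      (Finset.mem_union_left _ k)))
  · rintro rfl
    exact hT (Finset.mem_sdiff.2 ⟨Finset.mem_insert_of_mem (Finset.mem_insert_self _ _),
      fun k => (hA 2 k).2.1 rfl⟩)
  · exact fun k => hT (Finset.mem_sdiff.2 ⟨Finset.mem_insert_of_mem (Finset.mem_insert_of_mem
      (Finset.mem_union_left _ k)), Finset.disjoint_left.1 dSA k⟩)
  · change V.Co.j ((y ^ k) ^ ∏ a ∈ A, a) = ze (N₀ * (∏ l ∈ L.W, l) * ∏ l ∈ L.C \ A, l) 1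
    rw [mul_assoc, eR, map_pow, map_pow, hk]
    have a0 : ((∏ a ∈ A, a : ℕ) : ℂ) ≠ 0 := Nat.cast_ne_zero.2 A0
    have a1 : (R : ℂ) ≠ 0 := Nat.cast_ne_zero.2 (NeZero.ne R)
    have a2 : (N₀ : ℂ) ≠ 0 := Nat.cast_ne_zero.2 (NeZero.ne N₀)
    simp only [ze]
    rw [← Complex.exp_nat_mul]
    congr 1
    generalize (∏ a ∈ A, a) = m at a0
    push_cast
    field_simp
  · change N₀ * (∏ l ∈ L.W, l) * ∏ l ∈ L.C \ A, l = N₀ * R
    rw [mul_assoc, eR]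

end Vale.Agent.P022G.Top
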