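import Vale.Agent.P022G.Top.L2
import Vale.Agent.P022G.Top.Su

/-!
P022G: the data of the Galois side, from the data of the forms side.
-/

set_option linter.all false

open Matrix NumberField IsLocalRing

noncomputable section

namespace Vale.Agent.P022G.Top

open Vale.Agent.P022
open Vale.Agent.P027M.S (mx)
open Vale.Agent.P022D.Sel (M2)
open Vale.Agent.P022D.Top hiding COREn CORE MAIN TH END Su
open Vale.Agent.P022E.Loc (Pl Rt En Rm)
open Vale.Agent.P022E.Fm (Su)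
open Vale.Agent.P022E.As (Tg Out2 Gw Gm Lv2 ev0 mT cc tt dd)
open Vale.Agent.P022G.Ps (HD3 Ps2)

section alg

variable {O F : Type} [CommRing O] [Field F]

/-- the local data with another lattice -/
def gL (L : Pl O) (ρ : GQ →* M2 O) (a : ℕ → O) : Pl O := { L with r := ρ, a := a }

/-- equal traces and determinants -/
structure Sm (ρ ρ' : GQ →* M2 O) : Prop where
  tr : ∀ g, (ρ g).trace = (ρ' g).trace
  dt : ∀ g, (ρ g).det = (ρ' g).det
  one : ∀ g, ρ g = 1 → ρ' g = 1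

variable {L : Pl O} {ρ : GQ →* M2 O} {a : ℕ → O} {ϖ : O}

theorem ev_g (h : Sm ρ L.r) : ev0 ρ = ev0 L.r := by
  unfold P022D.As.ev0
  rw [funext h.tr, funext h.dt]

theorem gw_g (h : Sm ρ L.r) {T Q : Finset ℕ} {r : ℕ} {I : Ideal (Tg O)} (k : Gw ϖ L T Q r I) :
    Gw ϖ (gL L ρ a) T Q r I :=
  ⟨k.fin, k.nil0, fun g => (h.tr g ▸ k.nilt g : ∃ n : ℕ, (tt g - cc (ρ g).trace) ^ n ∈ I),
    fun g => (h.dt g ▸ k.nild g : ∃ n : ℕ, (dd g - cc (ρ g).det) ^ n ∈ I), k.nily, k.t1, k.tc,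
    k.tm, k.d1, k.dm, k.opn, k.unr,
    fun g hg => (h.tr g ▸ k.clt g hg : tt g - cc (ρ g).trace ∈ I),
    fun g hg => (h.dt g ▸ k.cld g hg : dd g - cc (ρ g).det ∈ I), k.yz⟩

theorem gm_g (h : Sm ρ L.r) {T Q : Finset ℕ} {r : ℕ} {Y : Type} [AddCommGroup Y]
    [Module (Tg O) Y] (k : Gm ϖ L T Q r Y) : Gm ϖ (gL L ρ a) T Q r Y := fun w => gw_g h (k w)

variable [IsLocalRing O]

theorem mT_g (h : Sm ρ L.r) : mT (gL L ρ a).r = mT L.r := by
  change Ideal.comap (ev0 ρ) _ = Ideal.comap (ev0 L.r) _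
  rw [ev_g h]

theorem out_g (h : Sm ρ L.r) {W : Type} [AddCommGroup W] [Module (Tg O) W]
    (k : Out2 ϖ (gL L ρ a) W) : Out2 ϖ L W := fun j =>
  (k j).imp fun s hs p hp => (ev_g h ▸ hs p hp : ϖ ^ j ∣ ev0 L.r p)

theorem ps_g (h : Sm ρ L.r) {S : P022D.R.Dat O F} {r n : ℕ} {q : Fin r → ℕ} {τ : Fin r → GQ}
    {s : GQ} {Yi Pc : Type} [AddCommGroup Yi] [Module (Tg O) Yi] [AddCommGroup Pc]
    [Module (Tg O) Pc] (p : Ps2 ϖ S L n q τ s Yi Pc) : Ps2 ϖ S (gL L ρ a) n q τ s Yi Pc :=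
  ⟨gm_g h p.gm, p.dia, p.red, p.piC, p.flat, p.ps⟩

theorem hd3_g (h : Sm ρ L.r) {S : P022D.R.Dat O F} {I : Type} {Y0 : I → Type} {W0 : Type}
    [∀ i, AddCommGroup (Y0 i)] [∀ i, Module (Tg O) (Y0 i)] [AddCommGroup W0] [Module (Tg O) W0]
    {ses : I → I → I → Prop} {ig ib : I} {iJ : Finset L.C → I}
    (k : HD3 ϖ S L Y0 W0 ses ig ib iJ) : HD3 ϖ S (gL L ρ a) Y0 W0 ses ig ib iJ := by
  refine ⟨k.comb, k.low, fun i => gm_g h (k.gm0 i), gm_g h k.gmW, k.pi0,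
    fun i => mT_g (a := a) h ▸ k.sb0 i, k.det0, fun J => mT_g (a := a) h ▸ k.big J, fun r => ?_⟩
  obtain ⟨b, c, n₀, A, hk⟩ := k.lev r
  refine ⟨b, c, n₀, A, fun n q h1 h2 => ?_⟩
  obtain ⟨τ, φ, Yb, Wc, Pc, i1, i2, i3, i4, i5, i6, e, f⟩ := hk n q h1 h2
  refine ⟨τ, φ, Yb, Wc, Pc, i1, i2, i3, i4, i5, i6,
    ⟨e.hτ, e.hφ, fun i => gm_g h (e.gm i), gm_g h e.gmC, e.dia, e.diaC, e.ex,
      fun i => mT_g (a := a) h ▸ e.sb i, e.pi, e.free, e.fib, e.red, e.piC, e.flat, e.cyc, e.unr,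
      e.new, e.desc⟩, fun (x : L.C) h4 h5 => ps_g h (f x h4 (h.one _ h5))⟩

end alg

variable {E : Type} [NontriviallyNormedField E] [IsUltrametricDist E]
  {r : GQ →* GL (Fin 2) E}

/-- the reduction of an integral representation -/
def rbO (r : GQ →* GL (Fin 2) E) (h : ∀ g i j, ‖(r g : Matrix (Fin 2) (Fin 2) E) i j‖ ≤ 1) :
    GQ →* GL (Fin 2) (ResidueField (Ob E)) :=
  ((residue (Ob E)).mapMatrix.toMonoidHom.comp (intg r h)).toHomUnits

variable {h : ∀ g i j, ‖(r g : Matrix (Fin 2) (Fin 2) E) i j‖ ≤ 1}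

theorem rbO_mx (g : GQ) : mx (rbO r h) g = (intg r h g).map (residue (Ob E)) := rfl

theorem rbO_zero {g : GQ} {i j : Fin 2} :
    mx (rbO r h) g i j = 0 ↔ ‖(r g : Matrix (Fin 2) (Fin 2) E) i j‖ < 1 := res_Ob

theorem rbO_one {g : GQ} :
    rbO r h g = 1 ↔ ∀ i j, ‖((r g : Matrix (Fin 2) (Fin 2) E) - 1) i j‖ < 1 := by
  rw [Units.ext_iff, ← Matrix.ext_iff]
  refine forall_congr' fun i => forall_congr' fun j => ?_
  have e : ((intg r h g i j - (1 : M2 (Ob E)) i j : Ob E) : E) =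
      ((r g : Matrix (Fin 2) (Fin 2) E) - 1) i j := by
    by_cases e : i = j <;> simp [Matrix.one_apply, e, intg_coe]
  rw [← e, ← res_Ob, map_sub, sub_eq_zero]
  have e2 : residue (Ob E) ((1 : M2 (Ob E)) i j) =
      ((1 : GL (Fin 2) (ResidueField (Ob E))) : M2 (ResidueField (Ob E))) i j := by
    by_cases e : i = j <;> simp [Matrix.one_apply, e]
  rw [e2]
  rfl

theorem intg_tr (g : GQ) :
    ((intg r h g).trace : E) = (r g : Matrix (Fin 2) (Fin 2) E).trace := by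
  rw [Matrix.trace_fin_two, Matrix.trace_fin_two]; rfl

theorem intg_dt (g : GQ) :
    ((intg r h g).det : E) = (r g : Matrix (Fin 2) (Fin 2) E).det := by
  rw [Matrix.det_fin_two, Matrix.det_fin_two]; rfl

theorem intg_one {g : GQ} : intg r h g = 1 ↔ r g = 1 := by
  rw [Units.ext_iff, ← Matrix.ext_iff, ← Matrix.ext_iff]
  refine forall_congr' fun i => forall_congr' fun j => ?_
  rw [Subtype.ext_iff, intg_coe]
  by_cases e : i = j <;> simp [Matrix.one_apply, e]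

theorem rbO_det (hd : DetOne r) (g : GQ) : (mx (rbO r h) g).det = 1 := by
  have h1 : residue (Ob E) ((intg r h g).det - 1) = 0 := res_Ob.2 (by
    rw [AddSubgroupClass.coe_sub, intg_dt]; exact hd g)
  rw [map_sub, map_one, sub_eq_zero, RingHom.map_det] at h1
  exact h1

theorem SuG.sm {T : Finset ℕ} {S : P022D.R.Dat (Ob E) (ResidueField (Ob E))}
    {r' : GQ →* M2 (Ob E)} (k : SuG r T S r') : Sm (intg r h) r' :=
  ⟨fun g => Subtype.ext ((intg_tr g).trans (k.tr g).symm),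
    fun g => Subtype.ext ((intg_dt g).trans (k.dt g).symm), fun g e => k.one g (intg_one.1 e)⟩

theorem SuG.rtr {T : Finset ℕ} {S : P022D.R.Dat (Ob E) (ResidueField (Ob E))}
    {r' : GQ →* M2 (Ob E)} (k : SuG r T S r') (g : GQ) :
    (mx S.rb g).trace = (mx (rbO r h) g).trace := by
  rw [← k.lift, rbO_mx, k.red, ← AddMonoidHom.map_trace, ← AddMonoidHom.map_trace,
    (k.sm (h := h)).tr]

variable [NormedAlgebra ℚ_[2] E] [FiniteDimensional ℚ_[2] E]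

theorem rbO_open (hc : Continuous r) : IsOpen {g : GQ | rbO r h g = 1} := by
  have ho : IsOpen (⋂ i, ⋂ j, {g : GQ | ‖((r g : Matrix (Fin 2) (Fin 2) E) - 1) i j‖ < 1}) :=
    isOpen_iInter_of_finite fun i => isOpen_iInter_of_finite fun j =>
      isOpen_lt (((Units.continuous_val.comp hc).sub continuous_const).matrix_elem i j).norm
        continuous_const
  convert ho using 1
  ext g
  simp only [Set.mem_setOf_eq, Set.mem_iInter, rbO_one]

/-- **the data of the Galois side** -/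
theorem exCx {M : Subgroup GQ} (hc : Continuous r) (hM : Bal r M) (hd : DetOne r)
    {U : Su (Ob E) (ResidueField (Ob E))} (hU : U.L.OkG U.S) (hH : U.L.H = M) {T : Finset ℕ}
    (k : SuG r T U.S U.L.r) {X : Finset ℕ} {as : ℕ}
    (hun : ∀ l : ℕ, l.Prime → (l ∉ U.S.T ∨ l ∈ X) → UnrAt r l) (hX : X ⊆ U.L.C)
    (big : (U.L.C \ X).card + 2 ≤ X.card)
    (one : ∀ a ∈ X, a % 8 = 1 ∧ ∀ φ, IsFrob a φ → rbO r hM.int φ = 1) (mem : as ∈ X)
    (mv : ∀ φ, IsFrob as φ →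
      (∃ z : Qb, z ^ 4 = 2 ∧ φ z ≠ z) ∧ ∃ z : Qb, z ^ 8 = -4 ∧ φ z ≠ z) :
    ∃ (S : R.Dat (Ob E) (ResidueField (Ob E))) (a : ℕ → Ob E), S.rb = rbO r hM.int ∧
      S.T = U.S.T ∧ Cx S (gL U.L (intg r hM.int) a) X as := by
  classical
  have sm := k.sm (h := hM.int)
  have dia : ∀ g ∈ M, mx (rbO r hM.int) g 0 1 = 0 ∧ mx (rbO r hM.int) g 1 0 = 0 := fun g hg =>
    ⟨rbO_zero.2 (hM.dia g hg).1, rbO_zero.2 (hM.dia g hg).2⟩
  have ant : ∀ g ∉ M, mx (rbO r hM.int) g 0 0 = 0 ∧ mx (rbO r hM.int) g 1 1 = 0 := fun g hg =>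
    ⟨rbO_zero.2 (hM.ant g hg).1, rbO_zero.2 (hM.ant g hg).2⟩
  have key : ∀ g, (mx (rbO r hM.int) g).trace ≠ 0 →
      g ∈ M ∧ mx (rbO r hM.int) g 0 0 ≠ mx (rbO r hM.int) g 1 1 := fun g hg => by
    rw [Matrix.trace_fin_two] at hg
    refine ⟨by_contra fun e => hg ?_, fun e => hg ?_⟩
    · rw [(ant g e).1, (ant g e).2, add_zero]
    · rw [e, CharTwo.add_self_eq_zero]
  have t0 : (mx (rbO r hM.int) U.S.g0).trace ≠ 0 := by
    rw [← k.rtr, Matrix.trace_fin_two]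
    exact fun e => U.S.dne (CharTwo.add_eq_zero.1 e)
  have tW : ∀ l ∈ U.L.W, (mx (rbO r hM.int) (U.L.g0 l)).trace ≠ 0 := fun l hl => by
    have e : (U.L.rb U.S l (U.L.g0 l)).trace = (mx U.S.rb (U.L.g0 l)).trace := by
      rw [P022E.Loc.Pl.rb_apply, Matrix.trace_mul_cycle, ← Matrix.map_mul, Units.inv_mul,
        Matrix.map_one _ (map_zero _) (map_one _), one_mul]
    rw [← k.rtr, ← e, Matrix.trace_fin_two]
    exact fun e => (hU.reg l hl).2.2 (CharTwo.add_eq_zero.1 e)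
  have ty : ∀ l, ∃ a : Ob E, l ∈ U.L.W → ∃ y : Ob E, Rt (intg r hM.int) (U.L.g0 l) y ∧
      residue (Ob E) y = mx (rbO r hM.int) (U.L.g0 l) 1 1 ∧
      En (intg r hM.int) (U.L.g0 l) (U.L.τ l) y a := fun l => by
    by_cases hl : l ∈ U.L.W
    swap
    · exact ⟨0, fun e => absurd e hl⟩
    obtain ⟨y, h1, -, -⟩ := hU.ty l hl
    have h2 : Rt (intg r hM.int) (U.L.g0 l) y := by
      unfold P022E.Loc.Rt at h1 ⊢
      rw [sm.tr, sm.dt]
      exact h1
    have et : residue (Ob E) (intg r hM.int (U.L.g0 l)).trace =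
        mx (rbO r hM.int) (U.L.g0 l) 0 0 + mx (rbO r hM.int) (U.L.g0 l) 1 1 := by
      rw [Matrix.trace_fin_two, map_add]; rfl
    have ed : residue (Ob E) (intg r hM.int (U.L.g0 l)).det =
        mx (rbO r hM.int) (U.L.g0 l) 0 0 * mx (rbO r hM.int) (U.L.g0 l) 1 1 := by
      rw [RingHom.map_det, RingHom.mapMatrix_apply, ← rbO_mx, Matrix.det_fin_two,
        (dia _ (key _ (tW l hl)).1).1, zero_mul, sub_zero]
    obtain ⟨y, h3, h4⟩ : ∃ y : Ob E, Rt (intg r hM.int) (U.L.g0 l) y ∧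
        residue (Ob E) y = mx (rbO r hM.int) (U.L.g0 l) 1 1 := by
      have h5 := congrArg (residue (Ob E)) h2
      rw [map_add, map_sub, map_mul, map_pow, et, ed, map_zero] at h5
      have h6 : (residue (Ob E) y - mx (rbO r hM.int) (U.L.g0 l) 1 1) *
          (residue (Ob E) y - mx (rbO r hM.int) (U.L.g0 l) 0 0) = 0 := by
        linear_combination h5
      rcases mul_eq_zero.1 h6 with e | e
      · exact ⟨y, h2, sub_eq_zero.1 e⟩
      · refine ⟨(intg r hM.int (U.L.g0 l)).trace - y, ?_, ?_⟩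
        · unfold P022E.Loc.Rt at h2 ⊢
          linear_combination h2
        · rw [map_sub, et, sub_eq_zero.1 e, add_sub_cancel_left]
    have hu : IsUnit ((intg r hM.int (U.L.g0 l)).trace - 2 * y) := by
      rw [← residue_ne_zero_iff_isUnit, map_sub, map_mul, map_ofNat,
        CharTwo.two_eq_zero (R := ResidueField (Ob E)), zero_mul,
        sub_zero, et, ← Matrix.trace_fin_two]
      exact tW l hl
    obtain ⟨u, hu⟩ := hu.exists_left_inv
    refine ⟨((intg r hM.int (U.L.τ l * U.L.g0 l)).trace -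
      y * (intg r hM.int (U.L.τ l)).trace) * u, fun _ => ⟨y, h3, h4, ?_⟩⟩
    unfold P022E.Loc.En
    rw [mul_assoc, hu, mul_one]
  choose a ha using ty
  have fr : ∀ x ∈ X, IsFrob x (U.L.φ x) := fun x hx =>
    have h1 := Finset.mem_union_right U.L.W (hX hx)
    ⟨U.L.P x, (hU.hP x h1).1, (hU.hP x h1).2, (hU.tm x h1).frob⟩
  have g0 := key _ t0
  refine ⟨⟨residue (Ob E), rbO r hM.int, U.S.T, U.S.g0, U.S.l0, residue_surjective,
    (dia _ g0.1).1, (dia _ g0.1).2, g0.2, U.S.hl0⟩, a, rfl, rfl,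
    ⟨fun c => residue_eq_zero_iff c, ⟨hH ▸ dia, hH ▸ ant, rbO_open hc,
      ⟨U.S.g0, hH ▸ g0.1, k.cy, g0.2⟩, hH ▸ hM.cyc⟩, rbO_det hd, hU.hT, hU.dj, hU.pr, hU.hP,
      hU.h2, hU.cj, hU.tm, fun l hl => ⟨(hU.reg l hl).1, hH ▸ (key _ (tW l hl)).1,
        (key _ (tW l hl)).2⟩, fun l hl g hg => (k.rtr g).symm.trans (hU.uni l hl g hg),
      fun _ => rfl, intg_open hc hM.int, (sm.dt _).trans hU.odd, ha⟩,
    ⟨hH ▸ g0.1, k.cy, Subtype.ext k.g0.1, Subtype.ext k.g0.2⟩,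
    ⟨hM.up.imp fun g e e' => e (congrArg Subtype.val e'),
      hM.lo.imp fun g e e' => e (congrArg Subtype.val e')⟩,
    fun l hl h1 P hP h2 s hs => (intg_one (h := hM.int)).2 (hun l hl h1 P hP h2 s hs), hX, big,
    fun x hx => ⟨(one x hx).1, congrArg Units.val ((one x hx).2 _ (fr x hx))⟩, mem,
    (mv _ (fr as mem)).1, (mv _ (fr as mem)).2⟩

end Vale.Agent.P022G.Top
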