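import Vale.Agent.P022G.Top.Th
import Vale.Agent.P022E.Dk.Big

/-!
P022G: the integral model for the forms side.
-/

set_option linter.all false

open Matrix NumberField IsLocalRing

noncomputable section

namespace Vale.Agent.P022G.Top

open Vale.Agent.P022 Vale.Agent.P022D Vale.Agent.P022D.Dk Vale.Agent.P022D.End
open Vale.Agent.P027M.S (mx)
open Vale.Agent.P022D.Sel (M2)
open Vale.Agent.P022D.Top hiding COREn CORE MAIN TH END
open Vale.Agent.P022D.Th (lt_add lt_sub lt_mul two_lt lt_of_sq)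

variable {E : Type} [NontriviallyNormedField E] [IsUltrametricDist E]

/-- `r'` is an integral model of `r` whose reduction is not split -/
structure SuG (r : GQ →* GL (Fin 2) E) (T : Finset ℕ)
    (S : R.Dat (Ob E) (ResidueField (Ob E))) (r' : GQ →* M2 (Ob E)) : Prop where
  red : S.red = residue (Ob E)
  hT : S.T = T
  opn : IsOpen {g : GQ | S.rb g = 1}
  det : ∀ g, (mx S.rb g).det = 1
  eig : ∀ g, ∃ a b, (mx S.rb g).trace = a + b ∧ (mx S.rb g).det = a * b
  wl : mx S.rb S.g1 1 0 ≠ 0 ∨ ∀ g, mx S.rb g 1 0 = 0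
  lift : ∀ g, (r' g).map S.red = mx S.rb g
  cont : ∀ k : ℕ,
    IsOpen {g : GQ | (r' g).map (Ideal.Quotient.mk (maximalIdeal (Ob E) ^ k)) = 1}
  tr : ∀ g, ((r' g).trace : E) = (r g : Matrix (Fin 2) (Fin 2) E).trace
  dt : ∀ g, ((r' g).det : E) = (r g : Matrix (Fin 2) (Fin 2) E).det
  dg : r' S.g0 0 1 = 0 ∧ r' S.g0 1 0 = 0
  nm : r' S.g1 0 1 = S.lam
  one : ∀ g, r g = 1 → r' g = 1
  cy : Cy8 S.g0
  g0 : (r S.g0 : Matrix (Fin 2) (Fin 2) E) 0 1 = 0 ∧ (r S.g0 : Matrix (Fin 2) (Fin 2) E) 1 0 = 0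
  d0 : ∀ g, (r' g 0 0 : E) = (r g : Matrix (Fin 2) (Fin 2) E) 0 0
  d1 : ∀ g, (r' g 1 1 : E) = (r g : Matrix (Fin 2) (Fin 2) E) 1 1
  xx : ∀ g h, ((r' g 0 1 * r' h 1 0 : Ob E) : E) =
    (r g : Matrix (Fin 2) (Fin 2) E) 0 1 * (r h : Matrix (Fin 2) (Fin 2) E) 1 0

variable [NormedAlgebra ℚ_[2] E] [FiniteDimensional ℚ_[2] E] {r : GQ →* GL (Fin 2) E}
  {M : Subgroup GQ}

theorem Bal.off (h : Bal r M) (hd : DetOne r) {g : GQ} (hg : g ∉ M) :
    ‖(r g : Matrix (Fin 2) (Fin 2) E) 0 1‖ = 1 ∧ ‖(r g : Matrix (Fin 2) (Fin 2) E) 1 0‖ = 1 := by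
  have h1 := hd g
  rw [Matrix.det_fin_two] at h1
  have h2 := lt_sub (lt_mul (h.ant g hg).1 (h.int g 1 1)) h1
  constructor
  · refine le_antisymm (h.int g 0 1) (not_lt.1 fun e => ?_)
    have := lt_sub h2 (lt_mul e (h.int g 1 0))
    rw [show ∀ a b : E, a - (a - b - 1) - b = 1 from fun a b => by ring, norm_one] at this
    exact lt_irrefl _ this
  · refine le_antisymm (h.int g 1 0) (not_lt.1 fun e => ?_)
    have := lt_sub h2 (mlt (h.int g 0 1) e)
    rw [show ∀ a b : E, a - (a - b - 1) - b = 1 from fun a b => by ring, norm_one] at this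
    exact lt_irrefl _ this

/-- a residually ramified prime is not unipotent -/
theorem Bal.nuni (h : Bal r M) (hd : DetOne r) {l : ℕ} (hl : l.Prime) (h2 : l ≠ 2)
    (hu : Uni r l) : RUnr r l := by
  intro g hg i j
  have hM := h.cyc g (cy_inert hl h2 hg)
  obtain ⟨P, hP, hlP, hg⟩ := hg
  have h1 := hu P hP hlP g fun x hx => by simpa using P.add_mem (hg x) hx
  have h3 := hd g
  rw [Matrix.trace_fin_two] at h1
  rw [Matrix.det_fin_two] at h3
  have h4 := lt_add h3 (lt_mul (h.dia g hM).1 (h.int g 1 0))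
  rw [show ∀ a b : E, a - b - 1 + b = a - 1 from fun a b => by ring] at h4
  have key : ∀ a d : E, ‖a‖ ≤ 1 → ‖a + d‖ < 1 → ‖a * d - 1‖ < 1 → ‖a - 1‖ < 1 := by
    intro a d ha e1 e2
    refine lt_of_sq ?_
    rw [show (a - 1) ^ 2 = (a + d) * a - (a * d - 1) - 2 * a by ring]
    exact lt_sub (lt_sub (lt_mul e1 ha) e2) (lt_mul two_lt ha)
  fin_cases i <;> fin_cases j
  · simpa using key _ _ (h.int g 0 0) h1 h4
  · simpa using (h.dia g hM).1
  · simpa using (h.dia g hM).2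
  · simpa using key _ _ (h.int g 1 1) (by rwa [add_comm]) (by rwa [mul_comm])

/-- **SETUP** -/
theorem setupG (hc : Continuous r) (hM : Bal r M) (hd : DetOne r) (T : Finset ℕ)
    (hT : T.Nonempty) : ∃ S r', SuG r T S r' := by
  haveI : CompactSpace GQ := by
    have h1 : Algebra.IsAlgebraic ℚ Qb := AlgebraicClosure.isAlgebraic ℚ
    have h2 : IsAlgClosure ℚ Qb := ⟨inferInstance, inferInstance⟩
    have h3 : IsGalois ℚ Qb := IsAlgClosure.isGalois ℚ Qb
    infer_instance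
  have hb : Continuous fun g => ‖(r g : Matrix (Fin 2) (Fin 2) E) 0 1‖ :=
    ((Units.continuous_val.comp hc).matrix_elem 0 1).norm
  obtain ⟨g1, -, hg1⟩ := isCompact_univ.exists_isMaxOn Set.univ_nonempty hb.continuousOn
  have hm : ∀ g, ‖(r g : Matrix (Fin 2) (Fin 2) E) 0 1‖ ≤
      ‖(r g1 : Matrix (Fin 2) (Fin 2) E) 0 1‖ := fun g => hg1 (Set.mem_univ g)
  have hb0 : (r g1 : Matrix (Fin 2) (Fin 2) E) 0 1 ≠ 0 := fun e => by
    obtain ⟨g, hg⟩ := hM.up
    have h3 := hm g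
    rw [e, norm_zero, norm_le_zero_iff] at h3
    exact hg h3
  obtain ⟨D, hD⟩ := P022E.Dk.scale4 _ hb0
  obtain ⟨s, hs⟩ : ∃ s, s = cj D r := ⟨_, rfl⟩
  have hD0 : ∀ g, (cj D r g : Matrix (Fin 2) (Fin 2) E) = _ := fun g => hD (r g)
  have hD' := hD0
  rw [← hs] at hD'
  have e00 : ∀ g, (s g : Matrix (Fin 2) (Fin 2) E) 0 0 = (r g : Matrix (Fin 2) (Fin 2) E) 0 0 :=
    fun g => by rw [hD']; rfl
  have e11 : ∀ g, (s g : Matrix (Fin 2) (Fin 2) E) 1 1 = (r g : Matrix (Fin 2) (Fin 2) E) 1 1 :=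
    fun g => by rw [hD']; rfl
  have e01 : ∀ g, (s g : Matrix (Fin 2) (Fin 2) E) 0 1 =
      ((r g1 : Matrix (Fin 2) (Fin 2) E) 0 1)⁻¹ * (r g : Matrix (Fin 2) (Fin 2) E) 0 1 :=
    fun g => by rw [hD']; rfl
  have e10 : ∀ g, (s g : Matrix (Fin 2) (Fin 2) E) 1 0 =
      (r g1 : Matrix (Fin 2) (Fin 2) E) 0 1 * (r g : Matrix (Fin 2) (Fin 2) E) 1 0 :=
    fun g => by rw [hD']; rfl
  have hi : ∀ g i j, ‖(s g : Matrix (Fin 2) (Fin 2) E) i j‖ ≤ 1 := fun g i j => by
    fin_cases i <;> fin_cases j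
    · exact (congrArg norm (e00 g)).trans_le (hM.int g 0 0)
    · refine (congrArg norm (e01 g)).trans_le ?_
      rw [norm_mul, norm_inv, inv_mul_le_iff₀ (norm_pos_iff.2 hb0), mul_one]
      exact hm g
    · exact (congrArg norm (e10 g)).trans_le (mle (hM.int _ _ _) (hM.int _ _ _))
    · exact (congrArg norm (e11 g)).trans_le (hM.int g 1 1)
  have hsc : Continuous s := hs ▸ cj_cont D hc
  let r0 := intg s hi
  let π := residue (Ob E)
  let rm : GQ →* M2 (ResidueField (Ob E)) := π.mapMatrix.toMonoidHom.comp r0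
  have erm : ∀ g i j, rm g i j = π (r0 g i j) := fun _ _ _ => rfl
  have ez : ∀ g i j, rm g i j = 0 ↔ ‖(s g : Matrix (Fin 2) (Fin 2) E) i j‖ < 1 :=
    fun g i j => res_Ob
  have etr : ∀ g, ((r0 g).trace : E) = (r g : Matrix (Fin 2) (Fin 2) E).trace := fun g => by
    rw [← cj_trace D, ← hs, Matrix.trace_fin_two, Matrix.trace_fin_two]; rfl
  have edt : ∀ g, ((r0 g).det : E) = (r g : Matrix (Fin 2) (Fin 2) E).det := fun g => by
    rw [← cj_det D, ← hs, Matrix.det_fin_two, Matrix.det_fin_two]; rfl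
  have hdet : ∀ g, (rm g).det = 1 := fun g => by
    have h1 : π ((r0 g).det - 1) = 0 := res_Ob.2 (by
      rw [AddSubgroupClass.coe_sub, edt]; exact hd g)
    rw [map_sub, map_one, sub_eq_zero, RingHom.map_det] at h1
    exact h1
  obtain ⟨g0, hcy, z01, z10, hne⟩ := hM.reg
  have y01 : r0 g0 0 1 = 0 := Subtype.ext ((e01 g0).trans (by rw [z01, mul_zero]; rfl))
  have y10 : r0 g0 1 0 = 0 := Subtype.ext ((e10 g0).trans (by rw [z10, mul_zero]; rfl))
  have hne' : rm g0 0 0 ≠ rm g0 1 1 := fun e => by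
    have h1 : π (r0 g0 0 0 - r0 g0 1 1) = 0 := by rw [map_sub, ← erm, ← erm, e, sub_self]
    have h2 : ‖(s g0 : Matrix (Fin 2) (Fin 2) E) 0 0 - (s g0 : Matrix (Fin 2) (Fin 2) E) 1 1‖ < 1 :=
      res_Ob.1 h1
    rw [e00, e11] at h2
    exact h2.ne hne
  have n01 : rm g1 0 1 ≠ 0 := fun e => by
    have := (ez _ _ _).1 e
    rw [e01, inv_mul_cancel₀ hb0, norm_one] at this
    exact lt_irrefl _ this
  have lo : ∀ g ∈ M, rm g 1 0 = 0 := fun g hg => (ez _ _ _).2 (by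
    rw [e10]; exact mlt (hM.int _ _ _) (hM.dia g hg).2)
  have hopen : IsOpen {g : GQ | rm.toHomUnits g = 1} := by
    have h6 := intg_open hsc hi 1
    refine open_ker _ (Filter.mem_of_superset (h6.mem_nhds (by simp)) fun g hg => ?_)
    refine Units.ext ?_
    ext i j
    have h7 := congrFun (congrFun hg i) j
    have h8 : r0 g i j - (1 : M2 (Ob E)) i j ∈ maximalIdeal (Ob E) ^ 1 := Ideal.Quotient.eq.1 (by
      refine h7.trans ?_
      by_cases e : i = j <;> simp [Matrix.one_apply, e])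
    rw [pow_one, ← residue_eq_zero_iff, map_sub, sub_eq_zero] at h8
    refine h8.trans ?_
    by_cases e : i = j <;> simp [Matrix.one_apply, e]
  refine ⟨⟨π, rm.toHomUnits, T, g0, g1, r0 g1 0 1, hT.choose, residue_surjective,
    by change π (r0 g0 0 1) = 0; rw [y01, map_zero], by change π (r0 g0 1 0) = 0; rw [y10, map_zero],
    hne', n01, hT.choose_spec⟩, r0, rfl, rfl, hopen, hdet, fun g => ?_, ?_, fun _ => rfl,
    intg_open hsc hi, etr, edt, ⟨y01, y10⟩, rfl, fun g hg => ?_, hcy, ⟨z01, z10⟩, e00, e11,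
    fun g h => ?_⟩
  · change ∃ a b, (rm g).trace = a + b ∧ (rm g).det = a * b
    by_cases hg : g ∈ M
    · exact ⟨rm g 0 0, rm g 1 1, Matrix.trace_fin_two _, by
        rw [Matrix.det_fin_two, lo g hg, mul_zero, sub_zero]⟩
    · refine ⟨1, 1, ?_, by rw [hdet, mul_one]⟩
      rw [Matrix.trace_fin_two, (ez _ _ _).2 (by rw [e00]; exact (hM.ant g hg).1),
        (ez _ _ _).2 (by rw [e11]; exact (hM.ant g hg).2), CharTwo.add_self_eq_zero,
        CharTwo.add_self_eq_zero]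
  · change rm g1 1 0 ≠ 0 ∨ ∀ g, rm g 1 0 = 0
    by_cases h : ∀ g, g ∈ M
    · exact Or.inr fun g => lo g (h g)
    · push Not at h
      obtain ⟨c, hcM⟩ := h
      have h1 : g1 ∉ M := fun e => by
        have := (hm c).trans_lt (hM.dia g1 e).1
        rw [(hM.off hd hcM).1] at this
        exact lt_irrefl _ this
      refine Or.inl fun e => ?_
      have := (ez _ _ _).1 e
      rw [e10, norm_mul, (hM.off hd h1).1, (hM.off hd h1).2, one_mul] at this
      exact lt_irrefl _ this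
  · have h5 : s g = 1 := by rw [hs, cj_eq_one]; exact hg
    ext i j
    rw [intg_coe, h5]
    by_cases e : i = j <;> simp [Matrix.one_apply, e]
  · change (s g : Matrix (Fin 2) (Fin 2) E) 0 1 * (s h : Matrix (Fin 2) (Fin 2) E) 1 0 = _
    rw [e01, e10]
    field_simp

end Vale.Agent.P022G.Top
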