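import Vale.Agent.P022D.End.Cg
import Vale.Agent.P022D.Top.Setup

/-!
P022G: the top of the proof when the residual representation is reducible on the group of the
eighth cyclotomic field (statements).
-/

set_option linter.all false

open Matrix NumberField

noncomputable section

namespace Vale.Agent.P022G.Top

open Vale.Agent.P022 Vale.Agent.P022.H790.CT Vale.Agent.P022D.Dk Vale.Agent.P022D.End
open Vale.Agent.P022D.Top hiding COREn CORE MAIN TH END

/-- `r` is integral and absolutely irreducible; modulo the maximal ideal it is diagonal on `M` and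
antidiagonal off `M`, where `M` has index at most two and contains the group of the eighth
cyclotomic field -/
structure Bal {E : Type} [NontriviallyNormedField E] (r : GQ →* GL (Fin 2) E)
    (M : Subgroup GQ) : Prop where
  int : ∀ g i j, ‖(r g : Matrix (Fin 2) (Fin 2) E) i j‖ ≤ 1
  cyc : ∀ g, Cy8 g → g ∈ M
  idx : ∀ g h, g ∉ M → h ∉ M → g * h ∈ M
  dia : ∀ g ∈ M, ‖(r g : Matrix (Fin 2) (Fin 2) E) 0 1‖ < 1 ∧
    ‖(r g : Matrix (Fin 2) (Fin 2) E) 1 0‖ < 1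
  ant : ∀ g, g ∉ M → ‖(r g : Matrix (Fin 2) (Fin 2) E) 0 0‖ < 1 ∧
    ‖(r g : Matrix (Fin 2) (Fin 2) E) 1 1‖ < 1
  reg : ∃ g, Cy8 g ∧ (r g : Matrix (Fin 2) (Fin 2) E) 0 1 = 0 ∧
    (r g : Matrix (Fin 2) (Fin 2) E) 1 0 = 0 ∧
    ‖(r g : Matrix (Fin 2) (Fin 2) E) 0 0 - (r g : Matrix (Fin 2) (Fin 2) E) 1 1‖ = 1
  up : ∃ g, (r g : Matrix (Fin 2) (Fin 2) E) 0 1 ≠ 0
  lo : ∃ g, (r g : Matrix (Fin 2) (Fin 2) E) 1 0 ≠ 0

/-- **TH**: the residual level, from Eisenstein series or theta series -/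
def TH : Prop := ∀ (E : Type) [NontriviallyNormedField E] [NormedAlgebra ℚ_[2] E]
  [IsUltrametricDist E] [FiniteDimensional ℚ_[2] E] (r : GQ →* GL (Fin 2) E) (M : Subgroup GQ),
  Continuous r → {p : ℕ | p.Prime ∧ ¬ UnrAt r p}.Finite → Bal r M → DetOne r →
  ∃ (N₀ : ℕ) (_ : NeZero N₀), Lev r N₀

/-- the theorem in fixed weight `i + 1` over fields with a primitive `n`-th root of unity; `S` is
a set of odd primes with product `R` -/
def COREn (R N₀ n : ℕ) [NeZero R] [NeZero N₀] : Prop :=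
  ∀ (E : Type) [NontriviallyNormedField E] [NormedAlgebra ℚ_[2] E]
  [IsUltrametricDist E] [FiniteDimensional ℚ_[2] E] (r : GQ →* GL (Fin 2) E) (M : Subgroup GQ)
  (S : Finset ℕ) (ω : (ZMod R)ˣ →* Eˣ) (i : ℕ),
  Continuous r → OddRep r → Bal r M → DetOne r → (∀ l ∈ S, l.Prime ∧ l ≠ 2) →
  R = ∏ l ∈ S, l → (∀ p : ℕ, p.Prime → p ≠ 2 → p ∉ S → UnrAt r p) → Lev r N₀ → 1 ≤ i →
  DetW r R ω i → (∃ ζ : E, IsPrimitiveRoot ζ n) → LimR ((N₀ * R) ^ 2) r

/-- **CORE** -/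
def CORE : Prop := ∀ (R N₀ : ℕ) [NeZero R] [NeZero N₀], ∃ n : ℕ, 0 < n ∧ COREn R N₀ n

/-- the theorem for balanced integral models -/
def MAIN : Prop := ∀ (E : Type) [NontriviallyNormedField E] [NormedAlgebra ℚ_[2] E]
  [IsUltrametricDist E] [FiniteDimensional ℚ_[2] E] (r : GQ →* GL (Fin 2) E) (M : Subgroup GQ),
  Continuous r → OddRep r → {p : ℕ | p.Prime ∧ ¬ UnrAt r p}.Finite → Bal r M → Q1Concl E r

section

variable {E : Type} [NontriviallyNormedField E] {χ : GQ →* Eˣ} {r : GQ →* GL (Fin 2) E}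
  {M : Subgroup GQ}

theorem Bal.tw (hn : ∀ g, ‖(χ g : E)‖ = 1) (h : Bal r M) : Bal (tws χ r) M := by
  have e : ∀ g i j, ‖(tws χ r g : Matrix (Fin 2) (Fin 2) E) i j‖ =
      ‖(r g : Matrix (Fin 2) (Fin 2) E) i j‖ := fun g i j => by
    rw [tws_ent, norm_mul, hn, one_mul]
  refine ⟨fun g i j => ?_, h.cyc, h.idx, fun g hg => ?_, fun g hg => ?_, ?_, ?_, ?_⟩
  · rw [e]
    exact h.int g i j
  · rw [e, e]
    exact h.dia g hg
  · rw [e, e]
    exact h.ant g hg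
  · obtain ⟨g, z, a, b, c⟩ := h.reg
    refine ⟨g, z, by rw [tws_ent, a, mul_zero], by rw [tws_ent, b, mul_zero], ?_⟩
    rw [tws_ent, tws_ent, ← mul_sub, norm_mul, hn, one_mul]
    exact c
  · obtain ⟨g, a⟩ := h.up
    exact ⟨g, by rw [tws_ent]; exact mul_ne_zero (χ g).ne_zero a⟩
  · obtain ⟨g, a⟩ := h.lo
    exact ⟨g, by rw [tws_ent]; exact mul_ne_zero (χ g).ne_zero a⟩

variable (E' : Type) [NontriviallyNormedField E'] [NormedAlgebra E E']

theorem Bal.ext (h : Bal r M) : Bal (bc E' r) M := by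
  refine ⟨fun g i j => ?_, h.cyc, h.idx, fun g hg => ?_, fun g hg => ?_, ?_, ?_, ?_⟩
  · rw [bc_ent, norm_algebraMap']
    exact h.int g i j
  · rw [bc_ent, bc_ent, norm_algebraMap', norm_algebraMap']
    exact h.dia g hg
  · rw [bc_ent, bc_ent, norm_algebraMap', norm_algebraMap']
    exact h.ant g hg
  · obtain ⟨g, z, a, b, c⟩ := h.reg
    refine ⟨g, z, by rw [bc_ent, a, map_zero], by rw [bc_ent, b, map_zero], ?_⟩
    rw [bc_ent, bc_ent, ← map_sub, norm_algebraMap']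
    exact c
  · obtain ⟨g, a⟩ := h.up
    exact ⟨g, by rwa [bc_ent, map_ne_zero]⟩
  · obtain ⟨g, a⟩ := h.lo
    exact ⟨g, by rwa [bc_ent, map_ne_zero]⟩

end

end Vale.Agent.P022G.Top
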